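import Vale.Agent.P268.T.A109.Defs

/-!
# P268, topological half: types of braids, and the slide hypothesis

* `clsU i j` = the class of the unordered pair `{i, j}` of strands (`clsH` of the increasing pair).
* `HasType g V b` : the pair classes of `b` are `g ^ V i j * g₋ ^ V j i` (`i < j`), the twists are
  `ψ g ^ V i i`, where `g₋ = Δ g * g⁻¹`.
* `OnlyMoves k b`, `Fixed k b`.
* `SlideOut θ j k x y` : the classes of `y` are those of `x` after the slide of `k` over `j`, where
  `j` has the twist `psiH θ`.
-/

namespace Vale.Agent.P268.T.A109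

open scoped unitInterval Topology Topology.Homotopy RealInnerProductSpace
open Vale.Agent.P268.H288

section Comm

variable {M : Type*} [DecidableEq M] [Nontrivial M] {X : Type*} [TopologicalSpace X] {A : Set X}
  {a : X}

/-- Relative homotopy groups are commutative if there are at least two loop coordinates. -/
theorem rg_comm {ha : a ∈ A} (x y : RG M ha) : x * y = y * x :=
  (HomotopyGroup.commGroup (N := M) (x := PP.const ha)).mul_comm x y

end Comm

variable {V : Type*} [NormedAddCommGroup V] [InnerProductSpace ℝ V]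

namespace Fr

variable (φ : Fr V) (M : Type*)

section Group

variable [DecidableEq M] [Nonempty M]

open Classical in
/-- The class of the unordered pair `{i, j}` of strands. -/
noncomputable def clsU {r : ℕ} (i j : Fin r) : φ.Br M r →* φ.PiG M :=
  if h : i < j then φ.clsH M h else if h' : j < i then φ.clsH M h' else 1

variable {M}

theorem clsU_of_lt {r : ℕ} {i j : Fin r} (h : i < j) : φ.clsU M i j = φ.clsH M h := by
  unfold clsU
  rw [dif_pos h]

theorem clsU_comm {r : ℕ} (i j : Fin r) : φ.clsU M i j = φ.clsU M j i := by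
  rcases lt_trichotomy i j with h | h | h
  · rw [clsU_of_lt φ h]
    unfold clsU
    rw [dif_neg h.asymm, dif_pos h]
  · rw [h]
  · rw [clsU_of_lt φ h]
    unfold clsU
    rw [dif_neg h.asymm, dif_pos h]

/-- The class `g₋`. -/
noncomputable def gm (g : φ.PiG M) : φ.PiG M := φ.deltaH M g * g⁻¹

theorem deltaH_eq (g : φ.PiG M) : φ.deltaH M g = φ.gm g * g := by
  unfold gm
  rw [inv_mul_cancel_right]

theorem psi_gm (g : φ.PiG M) : φ.psiH M (φ.gm g) = φ.psiH M g := by
  unfold gm
  rw [map_mul, map_inv, φ.psi_delta, mul_inv_cancel_right]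

/-- The type of a braid class. -/
structure HasType (g : φ.PiG M) {r : ℕ} (L : Matrix (Fin r) (Fin r) ℤ) (x : φ.Br M r) : Prop where
  pair : ∀ i j (h : i < j), φ.clsH M h x = g ^ L i j * φ.gm g ^ L j i
  twist : ∀ i, φ.twH M i x = φ.psiH M g ^ L i i

/-- The classes of `y` are those of `x` after the slide of the strand `k` over the strand `j`,
which has the twist `psiH θ`: the new strand `k` follows the old one and then a parallel copy of
`j`. -/
structure SlideOut {r : ℕ} (θ : φ.PiG M) (j k : Fin r) (x y : φ.Br M r) : Prop where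
  /-- pairs not containing `k` -/
  pair_other : ∀ i l, i ≠ k → l ≠ k → φ.clsU M i l y = φ.clsU M i l x
  /-- pairs `{i, k}` with `i ≠ j` -/
  pair_k : ∀ i, i ≠ k → i ≠ j → φ.clsU M i k y = φ.clsU M i k x * φ.clsU M i j x
  /-- the pair `{j, k}` -/
  pair_jk : φ.clsU M j k y = φ.clsU M j k x * φ.deltaH M θ
  /-- the twists of the other strands -/
  twist_other : ∀ i, i ≠ k → φ.twH M i y = φ.twH M i x
  /-- the twist of `k` -/
  twist_k : φ.twH M k y = φ.twH M k x * φ.twH M j x * φ.psiH M (φ.clsU M j k x)

end Group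

variable {M}

/-- Only the strand `k` moves. -/
def OnlyMoves {r : ℕ} (k : Fin r) (b : φ.BrL M r) : Prop :=
  ∀ y t, ∀ i, i ≠ k → ((b y).1 t).1.1 i = φ.base r i ∧ ((b y).1 t).2 i = φ.h1

/-- The strand `k` is constant. -/
def Fixed {r : ℕ} (k : Fin r) (b : φ.BrL M r) : Prop :=
  ∀ y t, ((b y).1 t).1.1 k = φ.base r k ∧ ((b y).1 t).2 k = φ.h1

end Fr

end Vale.Agent.P268.T.A109
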