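import Vale.Agent.P268.T.A109.Types

/-!
# P268, topological half: from letters, injectivity and geometric slides to types

* `Letters φ M r` : for every strand `k` there are braids in which only `k` moves, with prescribed
  classes and twist.
* `BrInj φ M r` : braids are determined by their pair classes and twists.
* `exists_type` : every integer matrix is a type.
* `slide_type` : the slide for types from the geometric slide.
-/

namespace Vale.Agent.P268.T.A109

open scoped unitInterval Topology Topology.Homotopy RealInnerProductSpace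
open Vale.Agent.P268.H288

variable {V : Type*} [NormedAddCommGroup V] [InnerProductSpace ℝ V]

namespace Fr

variable (φ : Fr V) (M : Type*)

section Loops

variable {M}

theorem fixed_const {r : ℕ} (k : Fin r) :
    φ.Fixed k (GenLoop.const : φ.BrL M r) := fun _ _ => ⟨rfl, rfl⟩

theorem OnlyMoves.fixed {r : ℕ} {k l : Fin r} {b : φ.BrL M r} (h : φ.OnlyMoves k b) (hl : l ≠ k) :
    φ.Fixed l b := fun y t => h y t l hl

variable [DecidableEq M]

theorem Fixed.transAt {r : ℕ} {k : Fin r} {b b' : φ.BrL M r} (h : φ.Fixed k b)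
    (h' : φ.Fixed k b') (i : M) : φ.Fixed k (GenLoop.transAt i b b') := by
  intro y t
  simp only [GenLoop.transAt, GenLoop.coe_copy]
  split_ifs
  · exact h _ t
  · exact h' _ t

end Loops

section Group

variable [DecidableEq M] [Nonempty M]

variable {M}

/-- The class of a pair of fixed strands is trivial. -/
theorem clsH_of_fixed {r : ℕ} {i j : Fin r} (hij : i < j) {b : φ.BrL M r} (hi : φ.Fixed i b)
    (hj : φ.Fixed j b) : φ.clsH M hij (hcl b) = 1 := by
  have h : rlMap (dif hij) (φ.dif_mem hij) (φ.dif_bx hij) (φ.bx_mem r) φ.e0_mem b =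
      GenLoop.const := by
    ext y
    refine PP.ext fun t => ?_
    rw [rlMap_apply]
    show dif hij ((b y).1 t) = φ.e0
    rw [← φ.dif_bx hij]
    refine Subtype.ext ?_
    rw [dif_apply, dif_apply, (hi y t).1, (hj y t).1]
    rfl
  show hcl (rlMap (dif hij) (φ.dif_mem hij) (φ.dif_bx hij) (φ.bx_mem r) φ.e0_mem b) = 1
  rw [h]
  rfl

theorem clsU_of_fixed {r : ℕ} {i j : Fin r} {b : φ.BrL M r} (hi : φ.Fixed i b)
    (hj : φ.Fixed j b) : φ.clsU M i j (hcl b) = 1 := by
  unfold clsU
  split_ifs with h h'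
  · exact φ.clsH_of_fixed h hi hj
  · exact φ.clsH_of_fixed h' hj hi
  · rfl

/-- The twist of a fixed strand is trivial. -/
theorem twH_of_fixed {r : ℕ} {i : Fin r} {b : φ.BrL M r} (hi : φ.Fixed i b) :
    φ.twH M i (hcl b) = 1 := by
  have h : rlMap (nrm i) (φ.nrm_mem i) (φ.nrm_bx i) (φ.bx_mem r) φ.h1_mem b =
      GenLoop.const := by
    ext y
    refine PP.ext fun t => ?_
    rw [rlMap_apply]
    exact (hi y t).2
  show hcl (rlMap (nrm i) (φ.nrm_mem i) (φ.nrm_bx i) (φ.bx_mem r) φ.h1_mem b) = 1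
  rw [h]
  rfl

variable (M)

/-- Existence of letters. -/
def Letters (r : ℕ) : Prop :=
  ∀ (k : Fin r) (κ : Fin r → φ.PiG M) (τ : φ.PhiG M), ∃ b : φ.BrL M r, φ.OnlyMoves k b ∧
    (∀ i, i ≠ k → φ.clsU M i k (hcl b) = κ i) ∧ φ.twH M k (hcl b) = τ

/-- Braids are determined by their classes. -/
def BrInj (r : ℕ) : Prop :=
  ∀ x y : φ.Br M r, (∀ i j (h : i < j), φ.clsH M h x = φ.clsH M h y) →
    (∀ i, φ.twH M i x = φ.twH M i y) → x = y

variable {M}

/-- Braids with prescribed classes, in which only the strands of `s` move. -/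
theorem exists_classes {r : ℕ} (hL : φ.Letters M r) (K : Fin r → Fin r → φ.PiG M)
    (τ : Fin r → φ.PhiG M) (s : Finset (Fin r)) :
    ∃ b : φ.BrL M r, (∀ k, k ∉ s → φ.Fixed k b) ∧
      (∀ i j (h : i < j), φ.clsH M h (hcl b) = if j ∈ s then K i j else 1) ∧
      ∀ i, φ.twH M i (hcl b) = if i ∈ s then τ i else 1 := by
  classical
  obtain ⟨i₀⟩ := (inferInstance : Nonempty M)
  induction s using Finset.induction_on with
  | empty =>
    refine ⟨GenLoop.const, fun k _ => φ.fixed_const k, fun i j h => ?_, fun i => ?_⟩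
    · rw [if_neg (Finset.notMem_empty j)]
      exact φ.clsH_of_fixed h (φ.fixed_const i) (φ.fixed_const j)
    · rw [if_neg (Finset.notMem_empty i)]
      exact φ.twH_of_fixed (φ.fixed_const i)
  | insert a s ha ih =>
    obtain ⟨b, hb1, hb2, hb3⟩ := ih
    obtain ⟨c, hc1, hc2, hc3⟩ := hL a (fun i => if i < a then K i a else 1) (τ a)
    have hcf : ∀ k, k ≠ a → φ.Fixed k c := fun k hk => OnlyMoves.fixed φ hc1 hk
    refine ⟨GenLoop.transAt i₀ c b, fun k hk => ?_, fun i j h => ?_, fun i => ?_⟩
    · rw [Finset.mem_insert, not_or] at hk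
      exact Fixed.transAt φ (hcf k hk.1) (hb1 k hk.2) i₀
    · rw [← hcl_mul i₀, map_mul, hb2 i j h]
      by_cases hja : j = a
      · subst hja
        rw [if_neg ha, one_mul, if_pos (Finset.mem_insert_self _ _), ← clsU_of_lt φ h,
          hc2 i h.ne, if_pos h]
      · have h1 : φ.clsH M h (hcl c) = 1 := by
          by_cases hia : i = a
          · subst hia
            rw [← clsU_of_lt φ h, clsU_comm, hc2 j h.ne', if_neg h.asymm]
          · exact φ.clsH_of_fixed h (hcf i hia) (hcf j hja)
        rw [h1, mul_one]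
        by_cases hjs : j ∈ s
        · rw [if_pos hjs, if_pos (Finset.mem_insert_of_mem hjs)]
        · rw [if_neg hjs, if_neg (by rw [Finset.mem_insert, not_or]; exact ⟨hja, hjs⟩)]
    · rw [← hcl_mul i₀, map_mul, hb3 i]
      by_cases hia : i = a
      · subst hia
        rw [if_neg ha, one_mul, if_pos (Finset.mem_insert_self _ _), hc3]
      · rw [φ.twH_of_fixed (hcf i hia), mul_one]
        by_cases his : i ∈ s
        · rw [if_pos his, if_pos (Finset.mem_insert_of_mem his)]
        · rw [if_neg his, if_neg (by rw [Finset.mem_insert, not_or]; exact ⟨hia, his⟩)]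

/-- Every integer matrix is a type. -/
theorem exists_type {r : ℕ} (hL : φ.Letters M r) (g : φ.PiG M) (L : Matrix (Fin r) (Fin r) ℤ) :
    ∃ b : φ.BrL M r, φ.HasType g L (hcl b) := by
  obtain ⟨b, _, h2, h3⟩ := φ.exists_classes hL (fun i j => g ^ L i j * φ.gm g ^ L j i)
    (fun i => φ.psiH M g ^ L i i) Finset.univ
  exact ⟨b, fun i j h => by rw [h2 i j h, if_pos (Finset.mem_univ _)],
    fun i => by rw [h3 i, if_pos (Finset.mem_univ _)]⟩

/-- Two braids of the same type have the same class. -/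
theorem HasType.unique {r : ℕ} (hI : φ.BrInj M r) {g : φ.PiG M} {L : Matrix (Fin r) (Fin r) ℤ}
    {x y : φ.Br M r} (hx : φ.HasType g L x) (hy : φ.HasType g L y) : x = y :=
  hI x y (fun i j h => by rw [hx.pair i j h, hy.pair i j h])
    (fun i => by rw [hx.twist i, hy.twist i])

end Group

/-! ### Slides -/

section Slide

open Matrix

theorem slide_apply_of_ne {r : ℕ} (L : Matrix (Fin r) (Fin r) ℤ) {j k a b : Fin r}
    (ha : a ≠ k) (hb : b ≠ k) : ((transvection j k (1 : ℤ))ᵀ * L * transvection j k 1 : Matrix (Fin r) (Fin r) ℤ) a b = L a b := by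
  rw [mul_transvection_apply_of_ne _ _ _ _ hb, ← transpose_apply (_ * _), transpose_mul,
    transpose_transpose, mul_transvection_apply_of_ne _ _ _ _ ha, transpose_apply]

theorem slide_apply_right {r : ℕ} (L : Matrix (Fin r) (Fin r) ℤ) {j k a : Fin r}
    (ha : a ≠ k) : ((transvection j k (1 : ℤ))ᵀ * L * transvection j k 1 : Matrix (Fin r) (Fin r) ℤ) a k = L a k + L a j := by
  have h : ∀ b, ((transvection j k (1 : ℤ))ᵀ * L) a b = L a b := fun b => by
    rw [← transpose_apply (_ * _), transpose_mul, transpose_transpose,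
      mul_transvection_apply_of_ne _ _ _ _ ha, transpose_apply]
  rw [mul_transvection_apply_same, h, h, one_mul]

theorem slide_apply_left {r : ℕ} (L : Matrix (Fin r) (Fin r) ℤ) {j k b : Fin r}
    (hb : b ≠ k) : ((transvection j k (1 : ℤ))ᵀ * L * transvection j k 1 : Matrix (Fin r) (Fin r) ℤ) k b = L k b + L j b := by
  rw [mul_transvection_apply_of_ne _ _ _ _ hb, ← transpose_apply (_ * _), transpose_mul,
    transpose_transpose, mul_transvection_apply_same, transpose_apply, transpose_apply, one_mul]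

theorem slide_apply_same {r : ℕ} (L : Matrix (Fin r) (Fin r) ℤ) {j k : Fin r} :
    ((transvection j k (1 : ℤ))ᵀ * L * transvection j k 1 : Matrix (Fin r) (Fin r) ℤ) k k = L k k + L j k + (L k j + L j j) := by
  have h : ∀ b, ((transvection j k (1 : ℤ))ᵀ * L) k b = L k b + L j b := fun b => by
    rw [← transpose_apply (_ * _), transpose_mul, transpose_transpose,
      mul_transvection_apply_same, transpose_apply, transpose_apply, one_mul]
  rw [mul_transvection_apply_same, h, h, one_mul]

variable [DecidableEq M] [Nontrivial M]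

variable {M}

/-- The geometric slide of the strand `k` over the strand `j`, for a relation `rel` of braids:
in the first braid only `k` moves; in the second one `k` is constant and unlinked, and `j` has the
twist `psiH θ`. -/
def SlideStep {r : ℕ} (rel : φ.BrL M r → φ.BrL M r → Prop) (i₀ : M) (j k : Fin r) : Prop :=
  ∀ b b' : φ.BrL M r, φ.OnlyMoves k b → φ.Fixed k b' →
    (∀ i, i ≠ k → φ.clsU M i k (hcl b') = 1) →
    ∀ θ : φ.PiG M, φ.twH M j (hcl b') = φ.psiH M θ → ∃ b'' : φ.BrL M r,
    rel (GenLoop.transAt i₀ b b') b'' ∧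
      φ.SlideOut θ j k (hcl (GenLoop.transAt i₀ b b')) (hcl b'')

/-- Value of a pair class of a braid of type `L`. -/
noncomputable def val (g : φ.PiG M) {r : ℕ} (L : Matrix (Fin r) (Fin r) ℤ) (i j : Fin r) :
    φ.PiG M := g ^ L i j * φ.gm g ^ L j i

theorem zpow_mul_zpow_mul {G : Type*} [Group G] (hG : ∀ x y : G, x * y = y * x) (x y : G)
    (a b c d : ℤ) : x ^ a * y ^ b * (x ^ c * y ^ d) = x ^ (a + c) * y ^ (b + d) := by
  rw [_root_.zpow_add, _root_.zpow_add, mul_assoc, mul_assoc, ← mul_assoc (y ^ b), hG (y ^ b) (x ^ c), mul_assoc]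

/-- **The slide of types.** -/
theorem SlideOut.hasType {r : ℕ} {j k : Fin r}
    (hjk : (j : ℕ) + 1 = k ∨ (k : ℕ) + 1 = j) {g : φ.PiG M} {L : Matrix (Fin r) (Fin r) ℤ}
    {x y : φ.Br M r} (hx : φ.HasType g L x) (hxy : φ.SlideOut (g ^ L j j) j k x y) :
    φ.HasType g ((transvection j k 1)ᵀ * L * transvection j k 1) y := by
  have hne : j ≠ k := by
    rintro rfl
    omega
  have comm : ∀ a b : φ.PiG M, a * b = b * a := rg_comm
  have comm' : ∀ a b : φ.PhiG M, a * b = b * a := rg_comm
  have hU : ∀ {a b : Fin r} (h : a < b) (z : φ.Br M r), φ.clsU M a b z = φ.clsH M h z :=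
    fun h z => by rw [clsU_of_lt φ h]
  have hU' : ∀ {a b : Fin r} (h : a < b) (z : φ.Br M r), φ.clsU M b a z = φ.clsH M h z :=
    fun h z => by rw [clsU_comm, clsU_of_lt φ h]
  -- the pair `{j, k}`
  have hΔ : φ.deltaH M (g ^ L j j) = g ^ L j j * φ.gm g ^ L j j := by
    have hc : Commute (φ.gm g) g := comm _ _
    rw [map_zpow, deltaH_eq, hc.mul_zpow, comm]
  have hpsi : ∀ a b : ℤ, φ.psiH M (g ^ a * φ.gm g ^ b) = φ.psiH M g ^ (a + b) := by
    intro a b
    rw [map_mul, map_zpow, map_zpow, psi_gm, _root_.zpow_add]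
  refine ⟨fun a b hab => ?_, fun a => ?_⟩
  · by_cases hak : a = k
    · subst hak
      rw [slide_apply_left L hab.ne', slide_apply_right L hab.ne']
      by_cases hbj : b = j
      · subst hbj
        rw [← hU' hab, hxy.pair_jk, hU' hab, hx.pair, hΔ]
        exact zpow_mul_zpow_mul comm _ _ _ _ _ _
      · have hjb : j < b := by
          rw [Fin.lt_def] at hab ⊢
          have : (b : ℕ) ≠ j := fun h => hbj (Fin.ext h)
          omega
        rw [← hU' hab, hxy.pair_k b hab.ne' hbj, hU' hab, hU' hjb, hx.pair, hx.pair]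
        exact zpow_mul_zpow_mul comm _ _ _ _ _ _
    by_cases hbk : b = k
    · subst hbk
      rw [slide_apply_left L hab.ne, slide_apply_right L hab.ne]
      by_cases haj : a = j
      · subst haj
        rw [← hU hab, hxy.pair_jk, hU hab, hx.pair, hΔ]
        exact zpow_mul_zpow_mul comm _ _ _ _ _ _
      · have haj' : a < j := by
          rw [Fin.lt_def] at hab ⊢
          have : (a : ℕ) ≠ j := fun h => haj (Fin.ext h)
          omega
        rw [← hU hab, hxy.pair_k a hab.ne haj, hU hab, hU haj', hx.pair, hx.pair]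
        exact zpow_mul_zpow_mul comm _ _ _ _ _ _
    · rw [slide_apply_of_ne L hak hbk, slide_apply_of_ne L hbk hak, ← hU hab,
        hxy.pair_other a b hak hbk, hU hab, hx.pair]
  · by_cases hak : a = k
    · subst hak
      rw [slide_apply_same L, hxy.twist_k, hx.twist, hx.twist]
      have h1 : φ.psiH M (φ.clsU M j a x) = φ.psiH M g ^ (L j a + L a j) := by
        rcases lt_or_gt_of_ne hne with h | h
        · rw [hU h, hx.pair, hpsi]
        · rw [hU' h, hx.pair, hpsi, add_comm]
      rw [h1, ← _root_.zpow_add, ← _root_.zpow_add]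
      congr 1
      ring
    · rw [slide_apply_of_ne L hak hak, hxy.twist_other a hak, hx.twist]

/-- **Slides of types from geometric slides.** -/
theorem exists_slide {r : ℕ} (hL : φ.Letters M r) {rel : φ.BrL M r → φ.BrL M r → Prop} {i₀ : M}
    {j k : Fin r} (hjk : (j : ℕ) + 1 = k ∨ (k : ℕ) + 1 = j) (hS : φ.SlideStep rel i₀ j k)
    (g : φ.PiG M) (L : Matrix (Fin r) (Fin r) ℤ) :
    ∃ b b' : φ.BrL M r, φ.HasType g L (hcl b) ∧
      φ.HasType g ((transvection j k 1)ᵀ * L * transvection j k 1) (hcl b') ∧ rel b b' := by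
  classical
  obtain ⟨c, hc1, hc2, hc3⟩ := φ.exists_classes hL
    (fun i l => if i = k then 1 else g ^ L i l * φ.gm g ^ L l i)
    (fun i => φ.psiH M g ^ L i i) (Finset.univ.erase k)
  obtain ⟨d, hd1, hd2, hd3⟩ := hL k (fun i => if i < k then g ^ L i k * φ.gm g ^ L k i
    else g ^ L k i * φ.gm g ^ L i k) (φ.psiH M g ^ L k k)
  have hdf : ∀ i, i ≠ k → φ.Fixed i d := fun i hi => OnlyMoves.fixed φ hd1 hi
  have hT : φ.HasType g L (hcl (GenLoop.transAt i₀ d c)) := by
    refine ⟨fun a b hab => ?_, fun a => ?_⟩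
    · rw [← hcl_mul i₀, map_mul, hc2 a b hab]
      by_cases hbk : b = k
      · subst hbk
        rw [if_neg (Finset.notMem_erase _ _), one_mul, ← clsU_of_lt φ hab, hd2 a hab.ne,
          if_pos hab]
      · rw [if_pos (Finset.mem_erase.mpr ⟨hbk, Finset.mem_univ _⟩)]
        by_cases hak : a = k
        · subst hak
          rw [if_pos rfl, one_mul, ← clsU_of_lt φ hab, clsU_comm, hd2 b hab.ne',
            if_neg hab.asymm]
        · rw [if_neg hak, φ.clsH_of_fixed hab (hdf a hak) (hdf b hbk), mul_one]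
    · rw [← hcl_mul i₀, map_mul, hc3 a]
      by_cases hak : a = k
      · subst hak
        rw [if_neg (Finset.notMem_erase _ _), one_mul, hd3]
      · rw [if_pos (Finset.mem_erase.mpr ⟨hak, Finset.mem_univ _⟩), φ.twH_of_fixed (hdf a hak),
          mul_one]
  have hck : ∀ i, i ≠ k → φ.clsU M i k (hcl c) = 1 := by
    intro i hi
    rcases lt_or_gt_of_ne hi with h | h
    · rw [clsU_of_lt φ h, hc2 i k h, if_neg (Finset.notMem_erase _ _)]
    · rw [clsU_comm, clsU_of_lt φ h, hc2 k i h, if_pos (Finset.mem_erase.mpr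
        ⟨hi, Finset.mem_univ _⟩), if_pos rfl]
  have hjk' : j ≠ k := by
    rintro rfl
    omega
  have hθ : φ.twH M j (hcl c) = φ.psiH M (g ^ L j j) := by
    rw [hc3 j, if_pos (Finset.mem_erase.mpr ⟨hjk', Finset.mem_univ _⟩), map_zpow]
  obtain ⟨b, hb1, hb2⟩ := hS d c hd1 (hc1 k (Finset.notMem_erase _ _)) hck _ hθ
  exact ⟨_, b, hT, SlideOut.hasType φ hjk hT hb2, hb1⟩

end Slide

end Fr

end Vale.Agent.P268.T.A109
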