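import Vale.Agent.P268.T.A109.RG

/-!
# P268, topological half: the class groups

* `Fr V`: the two reference vectors `e ∈ H` and `h ⊥ H` of the fibre `V`.
* `V0 V` = `V ∖ {0}`, `S1 V` = unit sphere, `BX V r` = framed configurations.
* `PiG`, `PhiG`, `Br`: the groups of pair classes, of twists, of braids.
* `clsH i j : Br →* PiG`, `twH i : Br →* PhiG`, `psiH : PiG →* PhiG`, `deltaH : PiG →* PiG`.
* `psi_delta : psiH (deltaH x) = psiH x * psiH x`.
-/

namespace Vale.Agent.P268.T.A109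

open scoped unitInterval Topology Topology.Homotopy RealInnerProductSpace
open Vale.Agent.P268.H288

/-- The two reference vectors of the fibre: `h` is the normal of the page of the slab, `H = h^⊥`,
and `e ∈ H` is the direction of the base configuration. -/
structure Fr (V : Type*) [NormedAddCommGroup V] [InnerProductSpace ℝ V] where
  e : V
  h : V
  he : ‖e‖ = 1
  hh : ‖h‖ = 1
  heh : ⟪h, e⟫ = 0

variable {V : Type*} [NormedAddCommGroup V] [InnerProductSpace ℝ V]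

/-- The punctured fibre. -/
abbrev V0 (V : Type*) [NormedAddCommGroup V] := {v : V // v ≠ 0}

/-- The unit sphere. -/
abbrev S1 (V : Type*) [NormedAddCommGroup V] := {v : V // ‖v‖ = 1}

/-- Framed configurations of `r` points in the fibre. -/
abbrev BX (V : Type*) [NormedAddCommGroup V] (r : ℕ) :=
  {c : Fin r → V // Function.Injective c} × (Fin r → S1 V)

/-- The reflection in the hyperplane orthogonal to `v`. -/
noncomputable def rf (v x : V) : V := x - (2 * (⟪x, v⟫ / ⟪v, v⟫)) • v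

theorem norm_rf {v : V} (hv : v ≠ 0) (x : V) : ‖rf v x‖ = ‖x‖ := by
  have hv : ⟪v, v⟫ ≠ 0 := inner_self_ne_zero.mpr hv
  have h1 : ‖rf v x‖ ^ 2 = ‖x‖ ^ 2 := by
    unfold rf
    rw [norm_sub_sq_real, inner_smul_right, norm_smul, mul_pow, Real.norm_eq_abs, sq_abs,
      ← real_inner_self_eq_norm_sq v]
    field_simp
    ring
  have h2 : 0 ≤ ‖rf v x‖ := norm_nonneg _
  have h3 : 0 ≤ ‖x‖ := norm_nonneg _
  nlinarith

theorem rf_rf {v : V} (hv : v ≠ 0) (x : V) : rf v (rf v x) = x := by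
  have hv : ⟪v, v⟫ ≠ 0 := inner_self_ne_zero.mpr hv
  unfold rf
  have h1 : ⟪x - (2 * (⟪x, v⟫ / ⟪v, v⟫)) • v, v⟫ = - ⟪x, v⟫ := by
    rw [inner_sub_left, inner_smul_left]
    simp only [conj_trivial]
    field_simp
    ring
  rw [h1, neg_div]
  module

theorem rf_of_inner_eq_zero {v x : V} (h : ⟪x, v⟫ = 0) : rf v x = x := by
  unfold rf
  rw [h, zero_div, mul_zero, zero_smul, sub_zero]

namespace Fr

variable (φ : Fr V)

theorem e_ne : φ.e ≠ 0 := by
  intro h
  have := φ.he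
  rw [h, norm_zero] at this
  exact zero_ne_one this

/-- Base point of `V0`. -/
def e0 : V0 V := ⟨φ.e, φ.e_ne⟩

/-- Base point of `S1`. -/
def h1 : S1 V := ⟨φ.h, φ.hh⟩

/-- The page of the slab in the punctured fibre. -/
def A0 : Set (V0 V) := {v | ⟪φ.h, (v : V)⟫ = 0}

theorem e0_mem : φ.e0 ∈ φ.A0 := φ.heh

theorem h1_mem : φ.h1 ∈ ({φ.h1} : Set (S1 V)) := rfl

/-- The base configuration `v_i = (i + 1) e`. -/
def base (r : ℕ) : Fin r → V := fun i => ((i : ℝ) + 1) • φ.e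

theorem base_inj (r : ℕ) : Function.Injective (φ.base r) := by
  intro i j hij
  have h1 : ((i : ℝ) + 1) = (j : ℝ) + 1 := by
    by_contra hne
    apply φ.e_ne
    have h2 : (((i : ℝ) + 1) - ((j : ℝ) + 1)) • φ.e = 0 := by
      rw [sub_smul, sub_eq_zero]; exact hij
    rcases smul_eq_zero.mp h2 with h3 | h3
    · exact absurd (sub_eq_zero.mp h3) hne
    · exact h3
  have h3 : (i : ℝ) = (j : ℝ) := by linarith
  exact Fin.ext (by exact_mod_cast h3)

/-- The framed base configuration. -/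
def bx (r : ℕ) : BX V r := (⟨φ.base r, φ.base_inj r⟩, fun _ => φ.h1)

/-- Framed configurations of the page of the slab, with the constant normal `h`. -/
def BA (r : ℕ) : Set (BX V r) := {c | (∀ i, ⟪φ.h, c.1.1 i⟫ = 0) ∧ ∀ i, c.2 i = φ.h1}

theorem bx_mem (r : ℕ) : φ.bx r ∈ φ.BA r :=
  ⟨fun i => by
    show ⟪φ.h, ((i : ℝ) + 1) • φ.e⟫ = 0
    rw [inner_smul_right, φ.heh, mul_zero], fun _ => rfl⟩

variable (M : Type*)

/-- Relative spheroids of pair differences. -/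
abbrev PiL := RL M φ.e0_mem

/-- Relative spheroids of normals. -/
abbrev PhiL := RL M φ.h1_mem

/-- Braids. -/
abbrev BrL (r : ℕ) := RL M (φ.bx_mem r)

/-- The group of pair classes. -/
abbrev PiG := RG M φ.e0_mem

/-- The group of twists. -/
abbrev PhiG := RG M φ.h1_mem

/-- The group of braids. -/
abbrev Br (r : ℕ) := RG M (φ.bx_mem r)

theorem cast_sub_ne {r : ℕ} {i j : Fin r} (hij : i < j) : (j : ℝ) - i ≠ 0 := by
  have h1 : ((i : ℕ) : ℝ) < ((j : ℕ) : ℝ) := by exact_mod_cast hij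
  linarith

/-- The normalised difference of two strands. -/
noncomputable def dif {r : ℕ} {i j : Fin r} (hij : i < j) : C(BX V r, V0 V) where
  toFun c := ⟨((j : ℝ) - i)⁻¹ • (c.1.1 j - c.1.1 i), by
    refine smul_ne_zero (inv_ne_zero (cast_sub_ne hij)) ?_
    rw [sub_ne_zero]
    exact fun h => hij.ne' (c.1.2 h)⟩
  continuous_toFun := by
    refine Continuous.subtype_mk ?_ _
    have hk : ∀ k : Fin r, Continuous fun c : BX V r => c.1.1 k := fun k =>
      (continuous_apply k).comp (continuous_subtype_val.comp continuous_fst)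
    exact ((hk j).sub (hk i)).const_smul _

theorem dif_apply {r : ℕ} {i j : Fin r} (hij : i < j) (c : BX V r) :
    (dif hij c : V) = ((j : ℝ) - i)⁻¹ • (c.1.1 j - c.1.1 i) := rfl

theorem dif_bx {r : ℕ} {i j : Fin r} (hij : i < j) : dif hij (φ.bx r) = φ.e0 := by
  refine Subtype.ext ?_
  show ((j : ℝ) - i)⁻¹ • (((j : ℝ) + 1) • φ.e - ((i : ℝ) + 1) • φ.e) = φ.e
  rw [← sub_smul, smul_smul]
  have : ((j : ℝ) - i)⁻¹ * ((j : ℝ) + 1 - ((i : ℝ) + 1)) = 1 := by
    have h2 := cast_sub_ne hij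
    field_simp
    ring
  rw [this, one_smul]

theorem dif_mem {r : ℕ} {i j : Fin r} (hij : i < j) : ∀ c ∈ φ.BA r, dif hij c ∈ φ.A0 := by
  intro c hc
  show ⟪φ.h, ((j : ℝ) - i)⁻¹ • (c.1.1 j - c.1.1 i)⟫ = 0
  rw [inner_smul_right, inner_sub_right, hc.1 j, hc.1 i]
  simp

/-- The normal of a strand. -/
def nrm {r : ℕ} (i : Fin r) : C(BX V r, S1 V) where
  toFun c := c.2 i
  continuous_toFun := by fun_prop

theorem nrm_mem {r : ℕ} (i : Fin r) : ∀ c ∈ φ.BA r, nrm i c ∈ ({φ.h1} : Set (S1 V)) :=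
  fun _ hc => hc.2 i

theorem nrm_bx {r : ℕ} (i : Fin r) : nrm i (φ.bx r) = φ.h1 := rfl

/-- The normal obtained by reflecting `h` in the hyperplane orthogonal to `v`. -/
noncomputable def psiMap : C(V0 V, S1 V) where
  toFun v := ⟨rf (v : V) φ.h, by rw [norm_rf v.2]; exact φ.hh⟩
  continuous_toFun := by
    refine Continuous.subtype_mk ?_ _
    have hv : ∀ v : V0 V, ⟪(v : V), (v : V)⟫ ≠ 0 := fun v => inner_self_ne_zero.mpr v.2
    unfold rf
    fun_prop (disch := exact hv _)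

theorem psiMap_apply (v : V0 V) : (φ.psiMap v : V) = rf (v : V) φ.h := rfl

theorem psiMap_of_mem {v : V0 V} (hv : v ∈ φ.A0) : φ.psiMap v = φ.h1 :=
  Subtype.ext (rf_of_inner_eq_zero hv)

theorem psiMap_mem : ∀ v ∈ φ.A0, φ.psiMap v ∈ ({φ.h1} : Set (S1 V)) :=
  fun _ hv => φ.psiMap_of_mem hv

theorem psiMap_e : φ.psiMap φ.e0 = φ.h1 := φ.psiMap_of_mem φ.e0_mem

/-- The displacement of a parallel copy: `v ↦ 2 ⟪e, v⟫ v - |v|² e`. -/
noncomputable def deltaMap : C(V0 V, V0 V) where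
  toFun v := ⟨(2 * ⟪φ.e, (v : V)⟫) • (v : V) - ⟪(v : V), (v : V)⟫ • φ.e, by
    have hv : ⟪(v : V), (v : V)⟫ ≠ 0 := inner_self_ne_zero.mpr v.2
    intro h0
    have h1 : ‖(2 * ⟪φ.e, (v : V)⟫) • (v : V) - ⟪(v : V), (v : V)⟫ • φ.e‖ ^ 2
        = ⟪(v : V), (v : V)⟫ ^ 2 := by
      rw [norm_sub_sq_real, inner_smul_right, inner_smul_left, norm_smul, norm_smul, mul_pow,
        mul_pow, Real.norm_eq_abs, Real.norm_eq_abs, sq_abs, sq_abs,
        ← real_inner_self_eq_norm_sq (v : V), φ.he, real_inner_comm φ.e (v : V)]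
      simp only [conj_trivial]
      ring
    rw [h0, norm_zero] at h1
    exact hv (by nlinarith [h1])⟩
  continuous_toFun := by
    refine Continuous.subtype_mk ?_ _
    fun_prop

theorem deltaMap_apply (v : V0 V) :
    (φ.deltaMap v : V) = (2 * ⟪φ.e, (v : V)⟫) • (v : V) - ⟪(v : V), (v : V)⟫ • φ.e := rfl

theorem deltaMap_e : φ.deltaMap φ.e0 = φ.e0 := by
  refine Subtype.ext ?_
  show (2 * ⟪φ.e, φ.e⟫) • φ.e - ⟪φ.e, φ.e⟫ • φ.e = φ.e
  rw [real_inner_self_eq_norm_sq, φ.he, ← sub_smul]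
  norm_num

theorem deltaMap_mem : ∀ v ∈ φ.A0, φ.deltaMap v ∈ φ.A0 := by
  intro v hv
  have h : ⟪φ.h, (v : V)⟫ = 0 := hv
  show ⟪φ.h, (2 * ⟪φ.e, (v : V)⟫) • (v : V) - ⟪(v : V), (v : V)⟫ • φ.e⟫ = 0
  rw [inner_sub_right, inner_smul_right, inner_smul_right, h, φ.heh]
  ring

/-- `R_{Δ v} h = R_v R_e R_v h`. -/
theorem rf_delta (v : V0 V) :
    rf (φ.deltaMap v : V) φ.h = rf (v : V) (rf φ.e (rf (v : V) φ.h)) := by
  have hv : ⟪(v : V), (v : V)⟫ ≠ 0 := inner_self_ne_zero.mpr v.2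
  have hee : ⟪φ.e, φ.e⟫ = 1 := by rw [real_inner_self_eq_norm_sq, φ.he, one_pow]
  have hve : ⟪(v : V), φ.e⟫ = ⟪φ.e, (v : V)⟫ := real_inner_comm _ _
  rw [deltaMap_apply]
  set w : V := (v : V) with hw
  set a : ℝ := ⟪φ.e, w⟫ with ha
  set b : ℝ := ⟪φ.h, w⟫ with hb
  set q : ℝ := ⟪w, w⟫ with hq
  have h1 : ⟪φ.h, (2 * a) • w - q • φ.e⟫ = 2 * a * b := by
    rw [inner_sub_right, inner_smul_right, inner_smul_right, φ.heh]
    ring
  have h2 : ⟪(2 * a) • w - q • φ.e, (2 * a) • w - q • φ.e⟫ = q ^ 2 := by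
    rw [inner_sub_right, inner_sub_left, inner_sub_left, inner_smul_right, inner_smul_right,
      inner_smul_right, inner_smul_right, inner_smul_left, inner_smul_left, inner_smul_left,
      inner_smul_left, hee, hve, ← hq, ← ha]
    simp only [conj_trivial]
    ring
  have h3 : rf w φ.h = φ.h - (2 * (b / q)) • w := rfl
  have h4 : rf φ.e (rf w φ.h) = φ.h - (2 * (b / q)) • w + (4 * (b / q) * a) • φ.e := by
    rw [h3]
    unfold rf
    rw [hee, inner_sub_left, inner_smul_left, φ.heh, hve]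
    simp only [conj_trivial]
    module
  have h5 : ⟪φ.h - (2 * (b / q)) • w + (4 * (b / q) * a) • φ.e, w⟫ =
      - b + 4 * (b / q) * a * a := by
    rw [inner_add_left, inner_sub_left, inner_smul_left, inner_smul_left, ← hb, ← ha, ← hq]
    simp only [conj_trivial]
    field_simp
    ring
  rw [h4]
  unfold rf
  rw [h1, h2, h5, ← hq]
  match_scalars
  · ring
  · field_simp
    ring
  · field_simp
    ring

/-- The operation `(v, s) ↦ R_v R_e s`. -/
noncomputable def muMap : C(V0 V × S1 V, S1 V) where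
  toFun w := ⟨rf (w.1 : V) (rf φ.e (w.2 : V)), by
    rw [norm_rf w.1.2, norm_rf φ.e_ne]; exact w.2.2⟩
  continuous_toFun := by
    refine Continuous.subtype_mk ?_ _
    have hv : ∀ v : V0 V × S1 V, ⟪(v.1 : V), (v.1 : V)⟫ ≠ 0 :=
      fun v => inner_self_ne_zero.mpr v.1.2
    unfold rf
    fun_prop (disch := first | exact hv _ | exact inner_self_ne_zero.mpr φ.e_ne)

theorem muMap_apply (w : V0 V × S1 V) : (φ.muMap w : V) = rf (w.1 : V) (rf φ.e (w.2 : V)) := rfl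

theorem muMap_mem : ∀ w ∈ φ.A0 ×ˢ ({φ.h1} : Set (S1 V)), φ.muMap w ∈ ({φ.h1} : Set (S1 V)) := by
  rintro ⟨v, s⟩ ⟨hv, hs⟩
  obtain rfl : s = φ.h1 := hs
  refine Subtype.ext ?_
  show rf (v : V) (rf φ.e φ.h) = φ.h
  rw [rf_of_inner_eq_zero φ.heh]
  exact rf_of_inner_eq_zero hv

theorem muMap_e (s : S1 V) : φ.muMap (φ.e0, s) = s :=
  Subtype.ext (rf_rf φ.e_ne _)

theorem muMap_h (v : V0 V) : φ.psiMap v = φ.muMap (v, φ.h1) := by
  refine Subtype.ext ?_
  show rf (v : V) φ.h = rf (v : V) (rf φ.e φ.h)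
  rw [rf_of_inner_eq_zero φ.heh]

section Group

variable [DecidableEq M] [Nonempty M]

/-- The class of the pair `i < j` of strands. -/
noncomputable def clsH {r : ℕ} {i j : Fin r} (hij : i < j) : φ.Br M r →* φ.PiG M :=
  rmap (dif hij) (φ.dif_mem hij) (φ.dif_bx hij) (φ.bx_mem r) φ.e0_mem

/-- The twist of a strand. -/
noncomputable def twH {r : ℕ} (i : Fin r) : φ.Br M r →* φ.PhiG M :=
  rmap (nrm i) (φ.nrm_mem i) (φ.nrm_bx i) (φ.bx_mem r) φ.h1_mem

/-- The twist which can be traded against a pair class. -/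
noncomputable def psiH : φ.PiG M →* φ.PhiG M :=
  rmap φ.psiMap φ.psiMap_mem φ.psiMap_e φ.e0_mem φ.h1_mem

/-- The class of a parallel copy of a strand with twist `psiH g`. -/
noncomputable def deltaH : φ.PiG M →* φ.PiG M :=
  rmap φ.deltaMap φ.deltaMap_mem φ.deltaMap_e φ.e0_mem φ.e0_mem

/-- **The identity `ψ (Δ x) = (ψ x)²`.** -/
theorem psi_delta (x : φ.PiG M) : φ.psiH M (φ.deltaH M x) = φ.psiH M x * φ.psiH M x := by
  have m : ∀ v ∈ φ.A0, (φ.psiMap.comp φ.deltaMap) v ∈ ({φ.h1} : Set (S1 V)) :=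
    fun v hv => φ.psiMap_mem _ (φ.deltaMap_mem v hv)
  have m' : (φ.psiMap.comp φ.deltaMap) φ.e0 = φ.h1 := by
    rw [ContinuousMap.comp_apply, φ.deltaMap_e, φ.psiMap_e]
  have e1 : φ.psiH M (φ.deltaH M x) =
      rmap (φ.psiMap.comp φ.deltaMap) m m' φ.e0_mem φ.h1_mem x :=
    rmap_rmap m m' (fun _ => rfl) x
  have e2 := rmap_mul_of_action (M := M) (ha := φ.e0_mem) (hb := φ.h1_mem) φ.muMap φ.muMap_mem
    φ.muMap_e φ.psiMap φ.muMap_h φ.psiMap_mem φ.psiMap_e (ContinuousMap.id (V0 V))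
    (fun _ h => h) rfl φ.psiMap φ.psiMap_mem φ.psiMap_e (hd := φ.e0_mem)
    (φ.psiMap.comp φ.deltaMap) m m' (fun v => Subtype.ext (φ.rf_delta v)) x
  refine e1.trans (e2.trans ?_)
  exact congrArg (fun y => φ.psiH M y * φ.psiH M x) (rmap_id φ.e0_mem x)

end Group

end Fr

end Vale.Agent.P268.T.A109
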