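import Vale.Agent.P268.T.A109.Types

/-!
# P268, topological half: homotopies from equalities of classes

Equalities in the groups `PiG`, `PhiG`, `Br` give continuous homotopies on `I × ((M → I) × I)`.
-/

namespace Vale.Agent.P268.T.A109

open scoped unitInterval Topology Topology.Homotopy RealInnerProductSpace
open Vale.Agent.P268.H288

section General

variable {M : Type*} {X : Type*} [TopologicalSpace X] {A : Set X} {a : X} {ha : a ∈ A}

/-- Equal classes: a homotopy of relative spheroids. -/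
theorem exists_homotopy {p q : RL M ha} (h : hcl p = hcl q) :
    ∃ H : C(I × ((M → I) × I), X), (∀ y, H (0, y) = PP.ofGL p y) ∧
      (∀ y, H (1, y) = PP.ofGL q y) ∧ ∀ s, PP.Rel A a fun y => H (s, y) :=
  PP.homotopic_iff.mp (hcl_eq_iff.mp h)

variable [DecidableEq M] [Nonempty M]

/-- Trivial class: a null-homotopy. -/
theorem exists_null {p : RL M ha} (h : hcl p = 1) :
    ∃ H : C(I × ((M → I) × I), X), (∀ y, H (0, y) = PP.ofGL p y) ∧
      (∀ y, H (1, y) = a) ∧ ∀ s, PP.Rel A a fun y => H (s, y) :=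
  exists_homotopy (q := GenLoop.const) h

end General

variable {V : Type*} [NormedAddCommGroup V] [InnerProductSpace ℝ V]

namespace Fr

variable (φ : Fr V) {M : Type*}

/-- The points and normals of a braid, as a continuous map of the cube. -/
abbrev pts {r : ℕ} (b : φ.BrL M r) (z : (M → I) × I) : BX V r := PP.ofGL b z

variable [DecidableEq M] [Nonempty M]

/-- Two braids with the same class of the pair `i < j`: a homotopy of the differences. -/
theorem exists_homotopy_lt {r : ℕ} {i j : Fin r} (hij : i < j) {b b' : φ.BrL M r}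
    (h : φ.clsH M hij (hcl b) = φ.clsH M hij (hcl b')) :
    ∃ E : C(I × ((M → I) × I), V), (∀ z, E z ≠ 0) ∧
      (∀ y, E (0, y) = (PP.ofGL b y).1.1 j - (PP.ofGL b y).1.1 i) ∧
      (∀ y, E (1, y) = (PP.ofGL b' y).1.1 j - (PP.ofGL b' y).1.1 i) ∧
      (∀ s, ∀ y ∈ Cube.boundary M, ∀ t, E (s, (y, t)) = φ.base r j - φ.base r i) ∧
      (∀ s y, E (s, (y, 1)) = φ.base r j - φ.base r i) ∧
      (∀ s y, ⟪φ.h, E (s, (y, 0))⟫ = 0) := by
  have h' : hcl (rlMap (dif hij) (φ.dif_mem hij) (φ.dif_bx hij) (φ.bx_mem r) φ.e0_mem b) =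
      hcl (rlMap (dif hij) (φ.dif_mem hij) (φ.dif_bx hij) (φ.bx_mem r) φ.e0_mem b') := h
  obtain ⟨H, H0, H1, HR⟩ := exists_homotopy h'
  have hc := cast_sub_ne hij
  have hbase : ((j : ℝ) - i) • φ.e = φ.base r j - φ.base r i := by
    show ((j : ℝ) - i) • φ.e = ((j : ℝ) + 1) • φ.e - ((i : ℝ) + 1) • φ.e
    rw [← sub_smul]
    congr 1
    ring
  refine ⟨⟨fun z => ((j : ℝ) - i) • (H z : V), ?_⟩, fun z => ?_, fun y => ?_, fun y => ?_,
    fun s y hy t => ?_, fun s y => ?_, fun s y => ?_⟩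
  · exact (continuous_subtype_val.comp H.continuous).const_smul _
  · exact smul_ne_zero hc (H z).2
  · show ((j : ℝ) - i) • (H (0, y) : V) = _
    rw [H0]
    show ((j : ℝ) - i) • (((j : ℝ) - i)⁻¹ • ((PP.ofGL b y).1.1 j - (PP.ofGL b y).1.1 i)) = _
    rw [smul_smul, mul_inv_cancel₀ hc, one_smul]
  · show ((j : ℝ) - i) • (H (1, y) : V) = _
    rw [H1]
    show ((j : ℝ) - i) • (((j : ℝ) - i)⁻¹ • ((PP.ofGL b' y).1.1 j - (PP.ofGL b' y).1.1 i)) = _
    rw [smul_smul, mul_inv_cancel₀ hc, one_smul]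
  · have h1 : H (s, (y, t)) = φ.e0 := (HR s).side y hy t
    show ((j : ℝ) - i) • (H (s, (y, t)) : V) = _
    rw [h1]
    exact hbase
  · have h1 : H (s, (y, 1)) = φ.e0 := (HR s).top y
    show ((j : ℝ) - i) • (H (s, (y, 1)) : V) = _
    rw [h1]
    exact hbase
  · have h1 : H (s, (y, 0)) ∈ φ.A0 := (HR s).rim y
    show ⟪φ.h, ((j : ℝ) - i) • (H (s, (y, 0)) : V)⟫ = 0
    have h2 : ⟪φ.h, (H (s, (y, 0)) : V)⟫ = 0 := h1
    rw [inner_smul_right, h2, mul_zero]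

/-- Two braids with the same class of the pair `{i, k}`: a homotopy of the differences. -/
theorem exists_homotopy_pair {r : ℕ} {i k : Fin r} (hik : i ≠ k) {b b' : φ.BrL M r}
    (h : φ.clsU M i k (hcl b) = φ.clsU M i k (hcl b')) :
    ∃ E : C(I × ((M → I) × I), V), (∀ z, E z ≠ 0) ∧
      (∀ y, E (0, y) = (PP.ofGL b y).1.1 k - (PP.ofGL b y).1.1 i) ∧
      (∀ y, E (1, y) = (PP.ofGL b' y).1.1 k - (PP.ofGL b' y).1.1 i) ∧
      (∀ s, ∀ y ∈ Cube.boundary M, ∀ t, E (s, (y, t)) = φ.base r k - φ.base r i) ∧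
      (∀ s y, E (s, (y, 1)) = φ.base r k - φ.base r i) ∧
      (∀ s y, ⟪φ.h, E (s, (y, 0))⟫ = 0) := by
  rcases lt_or_gt_of_ne hik with hlt | hlt
  · rw [clsU_of_lt φ hlt] at h
    exact φ.exists_homotopy_lt hlt h
  · rw [clsU_comm, clsU_of_lt φ hlt] at h
    obtain ⟨E, E0, E1, E2, E3, E4, E5⟩ := φ.exists_homotopy_lt hlt h
    refine ⟨-E, fun z => neg_ne_zero.mpr (E0 z), fun y => ?_, fun y => ?_, fun s y hy t => ?_,
      fun s y => ?_, fun s y => ?_⟩
    · rw [ContinuousMap.neg_apply, E1, neg_sub]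
    · rw [ContinuousMap.neg_apply, E2, neg_sub]
    · rw [ContinuousMap.neg_apply, E3 s y hy t, neg_sub]
    · rw [ContinuousMap.neg_apply, E4 s y, neg_sub]
    · rw [ContinuousMap.neg_apply, inner_neg_right, E5 s y, neg_zero]

/-- An unlinked pair: a null-homotopy of the difference. -/
theorem exists_null_pair {r : ℕ} {i k : Fin r} (hik : i ≠ k) {b : φ.BrL M r}
    (h : φ.clsU M i k (hcl b) = 1) :
    ∃ E : C(I × ((M → I) × I), V), (∀ z, E z ≠ 0) ∧
      (∀ y, E (0, y) = (PP.ofGL b y).1.1 k - (PP.ofGL b y).1.1 i) ∧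
      (∀ y, E (1, y) = φ.base r k - φ.base r i) ∧
      (∀ s, ∀ y ∈ Cube.boundary M, ∀ t, E (s, (y, t)) = φ.base r k - φ.base r i) ∧
      (∀ s y, E (s, (y, 1)) = φ.base r k - φ.base r i) ∧
      (∀ s y, ⟪φ.h, E (s, (y, 0))⟫ = 0) := by
  have h1 : φ.clsU M i k (hcl b) = φ.clsU M i k (hcl (GenLoop.const : φ.BrL M r)) := by
    rw [h, hcl_one, map_one]
  exact φ.exists_homotopy_pair hik h1

/-- Two braids with the same twist of the strand `i`: a homotopy of the normals. -/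
theorem exists_homotopy_nrm {r : ℕ} {i : Fin r} {b b' : φ.BrL M r}
    (h : φ.twH M i (hcl b) = φ.twH M i (hcl b')) :
    ∃ E : C(I × ((M → I) × I), S1 V),
      (∀ y, E (0, y) = (PP.ofGL b y).2 i) ∧ (∀ y, E (1, y) = (PP.ofGL b' y).2 i) ∧
      (∀ s, ∀ y ∈ Cube.boundary M, ∀ t, E (s, (y, t)) = φ.h1) ∧
      (∀ s y, E (s, (y, 1)) = φ.h1) ∧ (∀ s y, E (s, (y, 0)) = φ.h1) := by
  have h' : hcl (rlMap (nrm i) (φ.nrm_mem i) (φ.nrm_bx i) (φ.bx_mem r) φ.h1_mem b) =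
      hcl (rlMap (nrm i) (φ.nrm_mem i) (φ.nrm_bx i) (φ.bx_mem r) φ.h1_mem b') := h
  obtain ⟨H, H0, H1, HR⟩ := exists_homotopy h'
  exact ⟨H, H0, H1, fun s y hy t => (HR s).side y hy t, fun s y => (HR s).top y,
    fun s y => (HR s).rim y⟩

/-- A braid whose strand `i` has the twist `psiH (hcl θ)`: a homotopy of the normal to
`psiMap ∘ θ`. -/
theorem exists_homotopy_psi {r : ℕ} {i : Fin r} {b : φ.BrL M r} {θ : φ.PiL M}
    (h : φ.twH M i (hcl b) = φ.psiH M (hcl θ)) :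
    ∃ E : C(I × ((M → I) × I), S1 V),
      (∀ y, E (0, y) = (PP.ofGL b y).2 i) ∧ (∀ y, E (1, y) = φ.psiMap (PP.ofGL θ y)) ∧
      (∀ s, ∀ y ∈ Cube.boundary M, ∀ t, E (s, (y, t)) = φ.h1) ∧
      (∀ s y, E (s, (y, 1)) = φ.h1) ∧ (∀ s y, E (s, (y, 0)) = φ.h1) := by
  have h' : hcl (rlMap (nrm i) (φ.nrm_mem i) (φ.nrm_bx i) (φ.bx_mem r) φ.h1_mem b) =
      hcl (rlMap φ.psiMap φ.psiMap_mem φ.psiMap_e φ.e0_mem φ.h1_mem θ) := h
  obtain ⟨H, H0, H1, HR⟩ := exists_homotopy h'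
  exact ⟨H, H0, H1, fun s y hy t => (HR s).side y hy t, fun s y => (HR s).top y,
    fun s y => (HR s).rim y⟩

end Fr

end Vale.Agent.P268.T.A109
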