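import Vale.Agent.P268.H288.PP

/-!
# Relative homotopy groups

`RG M ha` = the homotopy group of the space of paths from `A` to `a`, i.e. the relative homotopy
group of `(X, A, a)` in dimension `|M| + 1`. `rmap` = the homomorphism induced by a map of pairs.
-/

namespace Vale.Agent.P268.T.A109

open scoped unitInterval Topology Topology.Homotopy
open Vale.Agent.P268.H288

variable (M : Type*) {X Y Z : Type*} [TopologicalSpace X] [TopologicalSpace Y]
  [TopologicalSpace Z] {A : Set X} {B : Set Y} {D : Set Z} {a : X} {b : Y} {d : Z}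

/-- Relative spheroids. -/
abbrev RL (ha : a ∈ A) := Ω^ M (PP X A a) (PP.const ha)

/-- Relative homotopy groups. -/
abbrev RG (ha : a ∈ A) := HomotopyGroup M (PP X A a) (PP.const ha)

variable {M}

/-- The image of a relative spheroid. -/
def rlMap (f : C(X, Y)) (hf : ∀ x ∈ A, f x ∈ B) (h : f a = b) (ha : a ∈ A) (hb : b ∈ B)
    (p : RL M ha) : RL M hb :=
  glMap (PP.map f hf h) (PP.map_const f hf h ha hb) p

@[simp]
theorem rlMap_apply (f : C(X, Y)) (hf : ∀ x ∈ A, f x ∈ B) (h : f a = b) (ha : a ∈ A) (hb : b ∈ B)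
    (p : RL M ha) (y : M → I) (t : I) : (rlMap f hf h ha hb p y).1 t = f ((p y).1 t) := rfl

variable [DecidableEq M] [Nonempty M]

/-- The homomorphism induced by a map of pairs. -/
noncomputable def rmap (f : C(X, Y)) (hf : ∀ x ∈ A, f x ∈ B) (h : f a = b) (ha : a ∈ A)
    (hb : b ∈ B) : RG M ha →* RG M hb :=
  hmap (PP.map f hf h) (PP.map_const f hf h ha hb)

theorem rmap_hcl (f : C(X, Y)) (hf : ∀ x ∈ A, f x ∈ B) (h : f a = b) (ha : a ∈ A)
    (hb : b ∈ B) (p : RL M ha) : rmap f hf h ha hb (hcl p) = hcl (rlMap f hf h ha hb p) := rfl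

/-- Functoriality. -/
theorem rmap_rmap {f : C(X, Y)} {hf : ∀ x ∈ A, f x ∈ B} {h : f a = b} {g : C(Y, Z)}
    {hg : ∀ y ∈ B, g y ∈ D} {h' : g b = d} {k : C(X, Z)} (hk : ∀ x ∈ A, k x ∈ D) (hk' : k a = d)
    {ha : a ∈ A} {hb : b ∈ B} {hd : d ∈ D} (hcomp : ∀ x, g (f x) = k x) (x : RG M ha) :
    rmap g hg h' hb hd (rmap f hf h ha hb x) = rmap k hk hk' ha hd x := by
  obtain ⟨p, rfl⟩ := hcl_surj x
  rw [rmap_hcl, rmap_hcl, rmap_hcl]
  congr 1
  ext y
  exact PP.ext fun t => hcomp _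

theorem rmap_congr {f g : C(X, Y)} {hf : ∀ x ∈ A, f x ∈ B} {h : f a = b}
    (hg : ∀ x ∈ A, g x ∈ B) (h' : g a = b) {ha : a ∈ A} {hb : b ∈ B} (hfg : ∀ x, f x = g x)
    (x : RG M ha) : rmap f hf h ha hb x = rmap g hg h' ha hb x := by
  obtain ⟨p, rfl⟩ := hcl_surj x
  rw [rmap_hcl, rmap_hcl]
  congr 1
  ext y
  exact PP.ext fun t => hfg _

theorem rmap_id (ha : a ∈ A) (x : RG M ha) :
    rmap (ContinuousMap.id X) (fun _ h => h) rfl ha ha x = x := by
  obtain ⟨p, rfl⟩ := hcl_surj x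
  rfl

/-- Homotopic maps of pairs induce the same homomorphism. -/
theorem rmap_homotopic {f g : C(X, Y)} {hf : ∀ x ∈ A, f x ∈ B} {h : f a = b}
    (hg : ∀ x ∈ A, g x ∈ B) (h' : g a = b) {ha : a ∈ A} {hb : b ∈ B} (H : C(I × X, Y))
    (h0 : ∀ x, H (0, x) = f x) (h1 : ∀ x, H (1, x) = g x) (hA : ∀ s, ∀ x ∈ A, H (s, x) ∈ B)
    (hH : ∀ s, H (s, a) = b) (x : RG M ha) : rmap f hf h ha hb x = rmap g hg h' ha hb x := by
  obtain ⟨p, rfl⟩ := hcl_surj x
  rw [rmap_hcl, rmap_hcl, hcl_eq_iff, PP.homotopic_iff]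
  have hp := PP.rel_ofGL p
  refine ⟨⟨fun z => H (z.1, PP.ofGL p z.2), by fun_prop⟩, ?_, ?_, ?_⟩
  · intro y; exact h0 _
  · intro y; exact h1 _
  · intro s
    refine ⟨fun y => hA s _ (hp.rim y), fun y => ?_, fun y hy t => ?_⟩
    · show H (s, PP.ofGL p (y, 1)) = b
      rw [hp.top y, hH]
    · show H (s, PP.ofGL p (y, t)) = b
      rw [hp.side y hy t, hH]

theorem const_mem (X : Type*) [TopologicalSpace X] (A : Set X) (hb : b ∈ B) :
    ∀ x ∈ A, ContinuousMap.const X b x ∈ B := fun _ _ => hb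

theorem rmap_const (ha : a ∈ A) (hb : b ∈ B) (x : RG M ha) :
    rmap (ContinuousMap.const X b) (const_mem X A hb) rfl ha hb x = 1 := by
  obtain ⟨p, rfl⟩ := hcl_surj x
  rfl

/-- A map of pairs which is homotopic to the constant map induces the trivial homomorphism. -/
theorem rmap_eq_one {f : C(X, Y)} {hf : ∀ x ∈ A, f x ∈ B} {h : f a = b} {ha : a ∈ A}
    {hb : b ∈ B} (H : C(I × X, Y)) (h0 : ∀ x, H (0, x) = f x) (h1 : ∀ x, H (1, x) = b)
    (hA : ∀ s, ∀ x ∈ A, H (s, x) ∈ B) (hH : ∀ s, H (s, a) = b) (x : RG M ha) :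
    rmap f hf h ha hb x = 1 :=
  (rmap_homotopic (g := ContinuousMap.const X b) (const_mem X A hb) rfl H h0 h1 hA hH x).trans
    (rmap_const ha hb x)

section ProdMaps

omit [DecidableEq M] [Nonempty M]

theorem fst_mem' : ∀ x ∈ A ×ˢ B, (ContinuousMap.fst : C(X × Y, X)) x ∈ A :=
  fun _ hx => (Set.mem_prod.mp hx).1

theorem snd_mem' : ∀ x ∈ A ×ˢ B, (ContinuousMap.snd : C(X × Y, Y)) x ∈ B :=
  fun _ hx => (Set.mem_prod.mp hx).2

theorem fst_base (a : X) (b : Y) : (ContinuousMap.fst : C(X × Y, X)) (a, b) = a := rfl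

theorem snd_base (a : X) (b : Y) : (ContinuousMap.snd : C(X × Y, Y)) (a, b) = b := rfl

/-- Relative spheroids of a product of pairs are homotopic if their components are. -/
theorem homotopic_prod (ha : a ∈ A) (hb : b ∈ B) (hab : (a, b) ∈ A ×ˢ B)
    {p q : RL M hab}
    (h1 : GenLoop.Homotopic (rlMap ContinuousMap.fst fst_mem' (fst_base a b) hab ha p)
      (rlMap ContinuousMap.fst fst_mem' (fst_base a b) hab ha q))
    (h2 : GenLoop.Homotopic (rlMap ContinuousMap.snd snd_mem' (snd_base a b) hab hb p)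
      (rlMap ContinuousMap.snd snd_mem' (snd_base a b) hab hb q)) :
    GenLoop.Homotopic p q := by
  rw [PP.homotopic_iff] at h1 h2 ⊢
  obtain ⟨F, hF0, hF1, hFR⟩ := h1
  obtain ⟨G, hG0, hG1, hGR⟩ := h2
  refine ⟨F.prodMk G, ?_, ?_, ?_⟩
  · intro y
    exact Prod.ext (hF0 y) (hG0 y)
  · intro y
    exact Prod.ext (hF1 y) (hG1 y)
  · intro s
    exact ⟨fun y => Set.mk_mem_prod ((hFR s).rim y) ((hGR s).rim y),
      fun y => Prod.ext ((hFR s).top y) ((hGR s).top y),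
      fun y hy t => Prod.ext ((hFR s).side y hy t) ((hGR s).side y hy t)⟩

end ProdMaps

/-- The class of a relative spheroid of a product is determined by its components. -/
theorem rmap_prod_injective (ha : a ∈ A) (hb : b ∈ B) (hab : (a, b) ∈ A ×ˢ B)
    {x y : RG M hab}
    (h1 : rmap ContinuousMap.fst fst_mem' (fst_base a b) hab ha x =
      rmap ContinuousMap.fst fst_mem' (fst_base a b) hab ha y)
    (h2 : rmap ContinuousMap.snd snd_mem' (snd_base a b) hab hb x =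
      rmap ContinuousMap.snd snd_mem' (snd_base a b) hab hb y) : x = y := by
  obtain ⟨p, rfl⟩ := hcl_surj x
  obtain ⟨q, rfl⟩ := hcl_surj y
  rw [rmap_hcl, rmap_hcl, hcl_eq_iff] at h1 h2
  rw [hcl_eq_iff]
  exact homotopic_prod ha hb hab h1 h2

theorem rmap_fst_prodMk {g : C(Z, X)} {k : C(Z, Y)} {ha : a ∈ A} {hab : (a, b) ∈ A ×ˢ B}
    {hd : d ∈ D} {m : ∀ z ∈ D, (g.prodMk k) z ∈ A ×ˢ B} {m' : (g.prodMk k) d = (a, b)}
    (hg : ∀ z ∈ D, g z ∈ A) (hgd : g d = a) (z : RG M hd) :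
    rmap ContinuousMap.fst fst_mem' (fst_base a b) hab ha (rmap (g.prodMk k) m m' hd hab z) =
      rmap g hg hgd hd ha z :=
  rmap_rmap hg hgd (fun _ => rfl) z

theorem rmap_snd_prodMk {g : C(Z, X)} {k : C(Z, Y)} {hb : b ∈ B} {hab : (a, b) ∈ A ×ˢ B}
    {hd : d ∈ D} {m : ∀ z ∈ D, (g.prodMk k) z ∈ A ×ˢ B} {m' : (g.prodMk k) d = (a, b)}
    (hk : ∀ z ∈ D, k z ∈ B) (hkd : k d = b) (z : RG M hd) :
    rmap ContinuousMap.snd snd_mem' (snd_base a b) hab hb (rmap (g.prodMk k) m m' hd hab z) =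
      rmap k hk hkd hd hb z :=
  rmap_rmap hk hkd (fun _ => rfl) z

/-- A continuous operation `μ` with `μ (a, y) = y`: the induced operation of classes is
`(x, y) ↦ f_* x * y` where `f x = μ (x, b)`. -/
theorem rmap_mul_of_action {ha : a ∈ A} {hb : b ∈ B} (μ : C(X × Y, Y))
    (hμ : ∀ w ∈ A ×ˢ B, μ w ∈ B) (hμa : ∀ y, μ (a, y) = y) (f : C(X, Y))
    (hf : ∀ x, f x = μ (x, b)) (hfB : ∀ x ∈ A, f x ∈ B) (hfb : f a = b)
    (g : C(Z, X)) (hg : ∀ z ∈ D, g z ∈ A) (hgd : g d = a)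
    (k : C(Z, Y)) (hk : ∀ z ∈ D, k z ∈ B) (hkd : k d = b) {hd : d ∈ D}
    (l : C(Z, Y)) (hl : ∀ z ∈ D, l z ∈ B) (hld : l d = b) (hlμ : ∀ z, l z = μ (g z, k z))
    (z : RG M hd) :
    rmap l hl hld hd hb z =
      rmap f hfB hfb ha hb (rmap g hg hgd hd ha z) * rmap k hk hkd hd hb z := by
  -- the product pair
  have hab : (a, b) ∈ A ×ˢ B := Set.mk_mem_prod ha hb
  -- maps into the product
  have m1 : ∀ z ∈ D, (g.prodMk k) z ∈ A ×ˢ B := fun z hz => Set.mk_mem_prod (hg z hz) (hk z hz)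
  have m1' : (g.prodMk k) d = (a, b) := Prod.ext hgd hkd
  have m2 : ∀ z ∈ D, (g.prodMk (ContinuousMap.const Z b)) z ∈ A ×ˢ B :=
    fun z hz => Set.mk_mem_prod (hg z hz) hb
  have m2' : (g.prodMk (ContinuousMap.const Z b)) d = (a, b) := Prod.ext hgd rfl
  have m3 : ∀ z ∈ D, ((ContinuousMap.const Z a).prodMk k) z ∈ A ×ˢ B :=
    fun z hz => Set.mk_mem_prod ha (hk z hz)
  have m3' : ((ContinuousMap.const Z a).prodMk k) d = (a, b) := Prod.ext rfl hkd
  have e1 : rmap (g.prodMk k) m1 m1' hd hab z =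
      rmap (g.prodMk (ContinuousMap.const Z b)) m2 m2' hd hab z *
      rmap ((ContinuousMap.const Z a).prodMk k) m3 m3' hd hab z := by
    refine rmap_prod_injective ha hb hab ?_ ?_
    · rw [map_mul]
      have c1 : rmap ContinuousMap.fst fst_mem' (fst_base a b) hab ha
          (rmap ((ContinuousMap.const Z a).prodMk k) m3 m3' hd hab z) = 1 :=
        (rmap_fst_prodMk (const_mem Z D ha) rfl z).trans (rmap_const hd ha z)
      rw [rmap_fst_prodMk hg hgd, rmap_fst_prodMk hg hgd, c1, mul_one]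
    · rw [map_mul]
      have c1 : rmap ContinuousMap.snd snd_mem' (snd_base a b) hab hb
          (rmap (g.prodMk (ContinuousMap.const Z b)) m2 m2' hd hab z) = 1 :=
        (rmap_snd_prodMk (const_mem Z D hb) rfl z).trans (rmap_const hd hb z)
      rw [rmap_snd_prodMk hk hkd, rmap_snd_prodMk hk hkd, c1, one_mul]
  have m4 : ∀ z ∈ D, (f.comp g) z ∈ B := fun z hz => hfB _ (hg z hz)
  have m4' : (f.comp g) d = b := by
    rw [ContinuousMap.comp_apply, hgd, hfb]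
  have e2 := congrArg (rmap μ hμ (hμa b) hab hb) e1
  have f1 : rmap μ hμ (hμa b) hab hb (rmap (g.prodMk k) m1 m1' hd hab z) =
      rmap l hl hld hd hb z := rmap_rmap hl hld (fun z => (hlμ z).symm) z
  have f2 : rmap μ hμ (hμa b) hab hb
      (rmap (g.prodMk (ContinuousMap.const Z b)) m2 m2' hd hab z) =
      rmap (f.comp g) m4 m4' hd hb z := rmap_rmap m4 m4' (fun z => (hf (g z)).symm) z
  have f3 : rmap μ hμ (hμa b) hab hb
      (rmap ((ContinuousMap.const Z a).prodMk k) m3 m3' hd hab z) =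
      rmap k hk hkd hd hb z := rmap_rmap hk hkd (fun z => hμa (k z)) z
  have f4 : rmap f hfB hfb ha hb (rmap g hg hgd hd ha z) = rmap (f.comp g) m4 m4' hd hb z :=
    rmap_rmap m4 m4' (fun _ => rfl) z
  rw [f1, map_mul, f2, f3] at e2
  rw [e2, f4]

end Vale.Agent.P268.T.A109
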