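import Vale.Agent.P268.T.A109.SplitZ

/-!
# P268, topological half, block B6c: the splitting at the sheet `j`

* `split_j` : the hypotheses of the splitting at `j`, for the data `c4`, `n4`.
* `agree_j` : the result of the splitting is `hd3`.
-/

set_option linter.unusedSectionVars false

namespace Vale.Agent.P268.T.A109

open Set Filter Topology Metric
open Vale.Agent.P268.T.H277 Vale.Agent.P268.T.H732

variable {d : ℕ} {A : Type} [DecidableEq A]
variable {c ν : A → Pk d → Vk d} {v : A → Vk d} {z j k : A} {e2 : Vk d} {L r : ℝ}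
  {a : Pk d → Vk d}

theorem c4_k : c4 c v z j k a e2 L r k = fun x => if x 0 ≤ 0 then
    c k x + sc (x 0) • (v j + (2 * r) • (v k - v j) - v k) else c j x + (2 * r) • a x := by
  unfold c4
  rw [if_pos rfl]

theorem c4_z (hz : z ≠ k) :
    c4 c v z j k a e2 L r z = fun _ => v k + L • e2 - (4 * r) • (v k - v j) := by
  unfold c4
  rw [if_neg hz, if_pos rfl]

theorem c4_i {i : A} (hk : i ≠ k) (hz : i ≠ z) : c4 c v z j k a e2 L r i = c i := by
  unfold c4
  rw [if_neg hk, if_neg hz]

theorem n4_k : n4 c ν v j k k = fun x => if x 0 ≤ 0 then nk2 c ν v j k x else ν j x := by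
  unfold n4
  rw [if_pos rfl]

theorem n4_i {i : A} (hk : i ≠ k) : n4 c ν v j k i = ν i := by
  unfold n4
  rw [if_neg hk]

/-- Hypotheses on the direction of the parallel copy. -/
structure ADir (ν : A → Pk d → Vk d) (v : A → Vk d) (j k : A) (a : Pk d → Vk d) : Prop where
  cont : ContinuousOn a (closedBall 0 1)
  na : ∀ x, ‖x‖ ≤ 1 → ‖a x‖ = 1 ∧ inner ℝ (a x) (ν j x) = 0
  ah : ∀ x, ‖x‖ = 1 → inner ℝ (a x) (frk d).h = 0
  al : ∀ x, ‖x‖ ≤ 1 → x 0 ≤ 1 / 4 → a x = v k - v j
  af : ∀ x, ‖x‖ ≤ 1 → Face x → a x = v k - v j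
  aw : ConstOn (1 / 2) 1 a

theorem ADir.right (ha : ADir ν v j k a) {x : Pk d} (hx : ‖x‖ ≤ 1) (h0 : 1 / 2 ≤ x 0) :
    a x = v k - v j := by
  have h1 : x 0 ≤ 1 := ((le_abs_self _).trans (norm_le_pi_norm x 0)).trans hx
  have hy := norm_upd_one hx
  have e1 : Function.update x 0 (1 : ℝ) 0 = 1 := Function.update_self _ _ _
  have e2 : ∀ l, l ≠ 0 → x l = Function.update x 0 (1 : ℝ) l := fun l hl =>
    (Function.update_of_ne hl _ _).symm
  have h2 := ha.aw x hx h0 h1 _ hy (by rw [e1]; norm_num) (by rw [e1]) e2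
  exact h2.trans (ha.af _ hy (face_upd_one x))

/-- Position of `k` before the wall. -/
theorem mid_eq (h : SD c ν v z j k) {x : Pk d} (hx : ‖x‖ ≤ 1)
    (h0 : -1 / 2 ≤ x 0) :
    c k x + sc (x 0) • (v j + (2 * r) • (v k - v j) - v k) =
      v j + (1 - sc (x 0) * (1 - 2 * r)) • (v k - v j) := by
  rw [(h.right x hx h0).1]
  module

theorem coef_ge (g : SG c v z j k e2 L r) (u : ℝ) (hu : u ∈ Icc (0 : ℝ) 1) :
    2 * r ≤ 1 - u * (1 - 2 * r) ∧ 1 - u * (1 - 2 * r) ≤ 1 := by
  have hr := g.hr
  have hr8 := g.hr8
  obtain ⟨h1, h2⟩ := hu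
  constructor <;> nlinarith

/-- The strand `k` is far from `j` before the wall. -/
theorem c4_fark_left (h : SD c ν v z j k) (g : SG c v z j k e2 L r) {x : Pk d} (hx : ‖x‖ ≤ 1)
    (hx0 : x 0 ≤ 0) :
    2 * r ≤ ‖c k x + sc (x 0) • (v j + (2 * r) • (v k - v j) - v k) - v j‖ := by
  have hr := g.hr
  rcases le_total (x 0) (-1 / 2) with h0 | h0
  · rw [sc_of_le h0, zero_smul, add_zero]
    have h1 := g.gap k j h.zk.symm h.zj.symm h.jk.symm x hx
    rw [(h.left j h.jk x hx (by linarith)).1] at h1
    linarith
  · rw [mid_eq h hx h0, add_sub_cancel_left, norm_smul, g.n1, mul_one, Real.norm_eq_abs]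
    exact (coef_ge g _ (sc_mem _)).1.trans (le_abs_self _)

theorem c4_ne_z (h : SD c ν v z j k) (g : SG c v z j k e2 L r) {x : Pk d} (hx : ‖x‖ ≤ 1) :
    c k x + sc (x 0) • (v j + (2 * r) • (v k - v j) - v k) ≠
      v k + L • e2 - (4 * r) • (v k - v j) := by
  have hr := g.hr
  have hr8 := g.hr8
  have hL8 := SG_L h g
  rcases le_total (x 0) (-1 / 2) with h0 | h0
  · rw [sc_of_le h0, zero_smul, add_zero]
    intro h1
    have h2 := c1_far h g (s := 4 * r) hx h.zk.symm (by rw [abs_of_pos (by linarith)]; linarith)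
    rw [h1, sub_self, norm_zero] at h2
    linarith
  · rw [mid_eq h hx h0]
    intro h1
    have h2 : inner ℝ e2 (v j + (1 - sc (x 0) * (1 - 2 * r)) • (v k - v j)) =
        inner ℝ e2 (v k + L • e2 - (4 * r) • (v k - v j)) := by rw [h1]
    rw [inner_add_right, inner_sub_right, inner_add_right, inner_smul_right, inner_smul_right,
      inner_smul_right, g.e2v j h.zj.symm, g.e2v k h.zk.symm, SG_ee h g,
      real_inner_self_eq_norm_sq, g.e2n] at h2
    linarith

theorem c4_ne_left (h : SD c ν v z j k) (g : SG c v z j k e2 L r) {x : Pk d} (hx : ‖x‖ ≤ 1)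
    (hx0 : x 0 ≤ 0) {i : A} (hz : i ≠ z) (hk : i ≠ k) :
    c k x + sc (x 0) • (v j + (2 * r) • (v k - v j) - v k) ≠ c i x := by
  have hr := g.hr
  have hr8 := g.hr8
  rw [(h.left i hk x hx (by linarith)).1]
  by_cases hj : i = j
  · subst hj
    intro h1
    have h2 := c4_fark_left h g hx hx0
    rw [h1, sub_self, norm_zero] at h2
    linarith
  · rcases le_total (x 0) (-1 / 2) with h0 | h0
    · rw [sc_of_le h0, zero_smul, add_zero, ← (h.left i hk x hx (by linarith)).1]
      exact SD_inj h hx hk.symm
    · rw [mid_eq h hx h0]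
      have h1 := g.seg i hz hj hk (sc (x 0) * (1 - 2 * r)) (by
        obtain ⟨h2, h3⟩ := sc_mem (x 0)
        constructor <;> nlinarith)
      intro h2
      apply h1
      rw [← h2]
      module

/-- The other sheets are far from the column over `j`. -/
theorem col_far (h : SD c ν v z j k) (g : SG c v z j k e2 L r) (ha : ADir ν v j k a)
    {x : Pk d} (hx : ‖x‖ ≤ 1) {i : A} (hj : i ≠ j) (hk : i ≠ k) {s : ℝ}
    (hs : s ∈ Icc (0 : ℝ) (2 * r)) :
    4 * r ≤ ‖c4 c v z j k a e2 L r i x - (c j x + s • a x)‖ := by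
  have hr := g.hr
  have hr8 := g.hr8
  obtain ⟨hs0, hs1⟩ := hs
  have hsa : ‖s • a x‖ ≤ 2 * r := by
    rw [norm_smul, (ha.na x hx).1, mul_one, Real.norm_eq_abs, abs_of_nonneg hs0]
    exact hs1
  by_cases hz : i = z
  · subst hz
    rw [c4_z hk]
    show 4 * r ≤ ‖v k + L • e2 - (4 * r) • (v k - v j) - (c j x + s • a x)‖
    have h1 := c1_far h g (s := 4 * r) hx h.zj.symm (by rw [abs_of_pos (by linarith)]; linarith)
    have h2 : c j x - (v k + L • e2 - (4 * r) • (v k - v j)) =
        -(v k + L • e2 - (4 * r) • (v k - v j) - (c j x + s • a x)) - s • a x := by module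
    rw [h2] at h1
    have h3 := norm_sub_le (-(v k + L • e2 - (4 * r) • (v k - v j) - (c j x + s • a x)))
      (s • a x)
    rw [norm_neg] at h3
    linarith
  · rw [c4_i hk hz]
    have h1 := g.gap i j hz h.zj.symm hj x hx
    have h2 : c i x - c j x = (c i x - (c j x + s • a x)) + s • a x := by module
    rw [h2] at h1
    have h3 := norm_add_le (c i x - (c j x + s • a x)) (s • a x)
    linarith

/-- Global formula for the strand `k`. -/
theorem c4_k_eq (h : SD c ν v z j k) (ha : ADir ν v j k a) {x : Pk d} (hx : ‖x‖ ≤ 1) :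
    c4 c v z j k a e2 L r k x = c k x + sc (x 0) • (v j + (2 * r) • (v k - v j) - v k) +
      (c j x - v j) + (2 * r) • (a x - (v k - v j)) := by
  rw [c4_k]
  show (if x 0 ≤ 0 then c k x + sc (x 0) • (v j + (2 * r) • (v k - v j) - v k) else
    c j x + (2 * r) • a x) = _
  split_ifs with h0
  · rw [(h.left j h.jk x hx (by linarith)).1, ha.al x hx (by linarith)]
    module
  · rw [(h.right x hx (by linarith)).1, sc_of_ge (by linarith)]
    module

/-- Global formula for the normal of `k`. -/
theorem n4_k_eq (h : SD c ν v z j k) (g : SG c v z j k e2 L r) {x : Pk d} (hx : ‖x‖ ≤ 1) :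
    n4 c ν v j k k x = ν k x + (rfl' (Glet c v j k x) (frk d).h - (frk d).h) +
      (ν j x - (frk d).h) := by
  have he := SG_eh h g
  rw [n4_k]
  show (if x 0 ≤ 0 then nk2 c ν v j k x else ν j x) = _
  split_ifs with h0
  · rw [nk2_eq h g.n1 he hx, (h.left j h.jk x hx (by linarith)).2, sub_self, add_zero]
  · rw [Glet_right h g.n1 (by linarith), rfl'_perp he, (h.right x hx (by linarith)).2]
    abel

theorem c4_k_right (h : SD c ν v z j k) (ha : ADir ν v j k a) {x : Pk d} (hx : ‖x‖ ≤ 1)
    (h0 : -1 / 4 ≤ x 0) : c4 c v z j k a e2 L r k x = c j x + (2 * r) • a x := by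
  rw [c4_k_eq h ha hx, (h.right x hx (by linarith)).1, sc_of_ge (by linarith)]
  module

theorem n4_k_right (h : SD c ν v z j k) (g : SG c v z j k e2 L r) {x : Pk d} (hx : ‖x‖ ≤ 1)
    (h0 : -1 / 4 ≤ x 0) : n4 c ν v j k k x = ν j x := by
  rw [n4_k_eq h g hx, Glet_right h g.n1 h0, rfl'_perp (SG_eh h g),
    (h.right x hx (by linarith)).2]
  abel

/-- The strand `k` is far from `j`. -/
theorem c4_fark (h : SD c ν v z j k) (g : SG c v z j k e2 L r) (ha : ADir ν v j k a)
    {x : Pk d} (hx : ‖x‖ ≤ 1) : 2 * r ≤ ‖c4 c v z j k a e2 L r k x - c j x‖ := by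
  have hr := g.hr
  rcases le_total (x 0) 0 with h0 | h0
  · rw [c4_k]
    show 2 * r ≤ ‖(if x 0 ≤ 0 then c k x + sc (x 0) • (v j + (2 * r) • (v k - v j) - v k) else
      c j x + (2 * r) • a x) - c j x‖
    rw [if_pos h0, (h.left j h.jk x hx (by linarith)).1]
    exact c4_fark_left h g hx h0
  · rw [c4_k_right h ha hx (by linarith), add_sub_cancel_left, norm_smul, (ha.na x hx).1, mul_one,
      Real.norm_eq_abs, abs_of_pos (by linarith)]

/-- The data `c4`, `n4` are braid data. -/
theorem c4_dat (h : SD c ν v z j k) (g : SG c v z j k e2 L r) (ha : ADir ν v j k a) :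
    BData (frk d).h (c4 c v z j k a e2 L r) (n4 c ν v j k) := by
  have hr := g.hr
  have hr8 := g.hr8
  have hL8 := SG_L h g
  have hu : () ∈ (univ : Set Unit) := mem_univ _
  have he := SG_eh h g
  have vk := g.vh k h.zk.symm
  have vj := g.vh j h.zj.symm
  refine ⟨fun i => ?_, fun i => ?_, fun t ht i x hx => ?_, fun t ht x hx => ?_,
    fun t ht i x hx => ?_, fun t ht i x hx => ?_⟩
  · have h1 : ContinuousOn (c4 c v z j k a e2 L r i) (closedBall 0 1) := by
      by_cases hk : i = k
      · subst hk
        have h2 : ContinuousOn (fun x : Pk d => c i x +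
            sc (x 0) • (v j + (2 * r) • (v i - v j) - v i) + (c j x - v j) +
            (2 * r) • (a x - (v i - v j))) (closedBall 0 1) := by
          refine ContinuousOn.add (ContinuousOn.add (ContinuousOn.add (h.cont i) ?_) ?_) ?_
          · exact Continuous.continuousOn (by fun_prop)
          · exact (h.cont j).sub continuousOn_const
          · exact (ha.cont.sub continuousOn_const).const_smul (2 * r)
        exact h2.congr fun x hx => c4_k_eq h ha (by simpa using hx)
      · by_cases hz : i = z
        · subst hz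
          rw [c4_z hk]
          exact continuousOn_const
        · rw [c4_i hk hz]
          exact h.cont i
    exact h1.comp continuousOn_snd fun q hq => hq.2
  · have h1 : ContinuousOn (n4 c ν v j k i) (closedBall 0 1) := by
      by_cases hk : i = k
      · subst hk
        have h2 : Continuous fun x : Pk d => rfl' (Glet c v j i x) (frk d).h - (frk d).h := by
          unfold rfl'
          have := continuous_Glet h
          fun_prop
        have h3 : ContinuousOn (fun x : Pk d => ν i x + (rfl' (Glet c v j i x) (frk d).h -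
            (frk d).h) + (ν j x - (frk d).h)) (closedBall 0 1) :=
          ((h.contn i).add h2.continuousOn).add ((h.contn j).sub continuousOn_const)
        exact h3.congr fun x hx => n4_k_eq h g (by simpa using hx)
      · rw [n4_i hk]
        exact h.contn i
    exact h1.comp continuousOn_snd fun q hq => hq.2
  · have hx' : ‖x‖ ≤ 1 := by simpa using hx
    show ‖n4 c ν v j k i x‖ = 1
    by_cases hk : i = k
    · subst hk
      rw [n4_k]
      show ‖if x 0 ≤ 0 then nk2 c ν v j i x else ν j x‖ = 1
      split_ifs with h0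
      · exact norm_nk2 h hx'
      · exact h.nnorm j hx'
    · rw [n4_i hk]
      exact h.nnorm i hx'
  · have hx' : ‖x‖ ≤ 1 := by simpa using hx
    have key : ∀ i, i ≠ k →
        c4 c v z j k a e2 L r k x ≠ c4 c v z j k a e2 L r i x := by
      intro i hk
      by_cases hj : i = j
      · subst hj
        intro h1
        have h2 := c4_fark h g ha hx'
        rw [h1, c4_i hk h.zj.symm, sub_self, norm_zero] at h2
        linarith
      · rcases le_total (x 0) 0 with h0 | h0
        · have e1 : c4 c v z j k a e2 L r k x =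
              c k x + sc (x 0) • (v j + (2 * r) • (v k - v j) - v k) := by
            rw [c4_k]
            exact if_pos h0
          rw [e1]
          by_cases hz : i = z
          · subst hz
            rw [c4_z hk]
            exact c4_ne_z h g hx'
          · rw [c4_i hk hz]
            exact c4_ne_left h g hx' h0 hz hk
        · intro h1
          have h2 := col_far h g ha hx' hj hk (s := 2 * r) ⟨by linarith, le_rfl⟩
          rw [c4_k_right h ha hx' (by linarith)] at h1
          rw [← h1, sub_self, norm_zero] at h2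
          linarith
    have key2 : ∀ i, i ≠ k → i ≠ z →
        c4 c v z j k a e2 L r i x ≠ c4 c v z j k a e2 L r z x := by
      intro i hk hz h1
      rw [c4_i hk hz, c4_z h.zk] at h1
      have h2 := c1_far h g (s := 4 * r) hx' hz (by rw [abs_of_pos (by linarith)]; linarith)
      rw [h1, sub_self, norm_zero] at h2
      linarith
    intro i i' (hii : c4 c v z j k a e2 L r i x = c4 c v z j k a e2 L r i' x)
    by_contra hne
    by_cases hk : i = k
    · subst hk
      exact key i' (Ne.symm hne) hii
    · by_cases hk' : i' = k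
      · subst hk'
        exact key i hk hii.symm
      · by_cases hz : i = z
        · subst hz
          exact key2 i' hk' (Ne.symm hne) hii.symm
        · by_cases hz' : i' = z
          · subst hz'
            exact key2 i hk hz hii
          · rw [c4_i hk hz, c4_i hk' hz'] at hii
            exact SD_inj h hx' hne hii
  · show inner ℝ (c4 c v z j k a e2 L r i x) (frk d).h = 0
    by_cases hk : i = k
    · subst hk
      rw [c4_k_eq h ha hx.le, inner_add_left, inner_add_left, inner_add_left, inner_sub_left,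
        inner_smul_left, inner_smul_left, inner_sub_left, inner_sub_left, inner_add_left,
        inner_smul_left, he, vk, vj, h.perp i hx, h.perp j hx, ha.ah x hx]
      simp
    · by_cases hz : i = z
      · subst hz
        rw [c4_z hk]
        show inner ℝ (v k + L • e2 - (4 * r) • (v k - v j)) (frk d).h = 0
        rw [inner_sub_left, inner_add_left, vk, inner_smul_left, g.e2h,
          inner_smul_left, he]
        simp
      · rw [c4_i hk hz]
        exact h.dat.bh t ht i x hx
  · show n4 c ν v j k i x = (frk d).h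
    by_cases hk : i = k
    · subst hk
      rw [n4_k]
      show (if x 0 ≤ 0 then nk2 c ν v j i x else ν j x) = (frk d).h
      split_ifs with h0
      · exact nk2_perp h g.n1 vk vj hx h0
      · exact h.nperp j hx
    · rw [n4_i hk]
      exact h.nperp i hx

/-- **The hypotheses of the splitting at `j`.** -/
theorem split_j (h : SD c ν v z j k) (g : SG c v z j k e2 L r) (ha : ADir ν v j k a) :
    SplitHyp (c4 c v z j k a e2 L r) (n4 c ν v j k) a j k (v j) (v k - v j) r := by
  have hr := g.hr
  have hr8 := g.hr8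
  have hL8 := SG_L h g
  have hcj : c4 c v z j k a e2 L r j = c j := c4_i h.jk h.zj.symm
  have hnj : n4 c ν v j k j = ν j := n4_i h.jk
  refine
    { jk := h.jk
      hr := g.hr
      dat := c4_dat h g ha
      ca := ha.cont
      na := fun x hx => by rw [hnj]; exact ha.na x hx
      ah := ha.ah
      par := fun x hx hx0 => ⟨?_, ?_⟩
      left := fun x hx hx0 => ⟨?_, ?_, ha.al x hx hx0⟩
      far := fun i hj hk x hx s hs => ?_
      fark := fun x hx => ?_
      win := fun i => ?_
      wina := ha.aw
      cst := fun i x y hx hy hx0 hy0 => ?_ }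
  · rw [hcj]
    exact c4_k_right h ha hx hx0
  · rw [hnj]
    exact n4_k_right h g hx hx0
  · rw [hcj]
    exact (h.left j h.jk x hx hx0).1
  · rw [hnj]
    exact (h.left j h.jk x hx hx0).2
  · rw [hcj]
    exact col_far h g ha hx hj hk hs
  · rw [hcj]
    exact c4_fark h g ha hx
  · by_cases hk : i = k
    · subst hk
      have r1 : ConstOn (-1 / 4) (1 / 4) (c4 c v z j i a e2 L r i) := by
        intro x hx hx0 hx1 y hy hy0 hy1 _
        rw [c4_k_right h ha hx hx0, c4_k_right h ha hy hy0, (h.left j h.jk x hx hx1).1,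
          (h.left j h.jk y hy hy1).1, ha.al x hx hx1, ha.al y hy hy1]
      have r2 : ConstOn (-1 / 4) (1 / 4) (n4 c ν v j i i) := by
        intro x hx hx0 hx1 y hy hy0 hy1 _
        rw [n4_k_right h g hx hx0, n4_k_right h g hy hy0, (h.left j h.jk x hx hx1).2,
          (h.left j h.jk y hy hy1).2]
      have r3 : ConstOn (1 / 2) 1 (c4 c v z j i a e2 L r i) := by
        intro x hx hx0 hx1 y hy hy0 hy1 _
        rw [c4_k_right h ha hx (by linarith), c4_k_right h ha hy (by linarith),
          (SD_half h j hx hx0).1, (SD_half h j hy hy0).1, ha.right hx hx0, ha.right hy hy0]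
      have r4 : ConstOn (1 / 2) 1 (n4 c ν v j i i) := by
        intro x hx hx0 hx1 y hy hy0 hy1 _
        rw [n4_k_right h g hx (by linarith), n4_k_right h g hy (by linarith),
          (SD_half h j hx hx0).2, (SD_half h j hy hy0).2]
      refine ⟨r1, r2, r3, r4, ?_, ?_⟩
      · intro x hx hx0 hx1 y hy hy0 hy1 _
        rw [c4_k_eq h ha hx, c4_k_eq h ha hy, (h.kleft hx hx1).1, (h.kleft hy hy1).1,
          sc_of_le (by linarith), sc_of_le (by linarith), (h.left j h.jk x hx (by linarith)).1,
          (h.left j h.jk y hy (by linarith)).1, ha.al x hx (by linarith),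
          ha.al y hy (by linarith)]
      · intro x hx hx0 hx1 y hy hy0 hy1 _
        rw [n4_k_eq h g hx, n4_k_eq h g hy, (h.kleft hx hx1).2, (h.kleft hy hy1).2,
          Glet_left h g.n1 (by linarith), Glet_left h g.n1 (by linarith),
          (h.left j h.jk x hx (by linarith)).2, (h.left j h.jk y hy (by linarith)).2]
    · rw [n4_i hk]
      obtain ⟨w1, w2, w3, w4⟩ := h.win i
      have hν1 : ConstOn (-1 / 4) (1 / 4) (ν i) := by
        intro x hx hx0 hx1 y hy hy0 hy1 _
        rw [(h.left i hk x hx hx1).2, (h.left i hk y hy hy1).2]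
      by_cases hz : i = z
      · subst hz
        rw [c4_z hk]
        exact ⟨fun x _ _ _ y _ _ _ _ => rfl, hν1, fun x _ _ _ y _ _ _ _ => rfl, w2,
          fun x _ _ _ y _ _ _ _ => rfl, w4⟩
      · rw [c4_i hk hz]
        refine ⟨fun x hx hx0 hx1 y hy hy0 hy1 hxy => ?_, hν1, w1, w2, w3, w4⟩
        rw [(h.left i hk x hx hx1).1, (h.left i hk y hy hy1).1]
  · by_cases hk : i = k
    · subst hk
      rw [c4_k_right h ha hx (by linarith), c4_k_right h ha hy (by linarith),
        n4_k_right h g hx (by linarith), n4_k_right h g hy (by linarith),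
        (SD_half h j hx (by linarith)).1, (SD_half h j hy (by linarith)).1,
        (SD_half h j hx (by linarith)).2, (SD_half h j hy (by linarith)).2,
        ha.right hx (by linarith), ha.right hy (by linarith)]
      exact ⟨rfl, rfl⟩
    · rw [n4_i hk, (SD_half h i hx (by linarith)).2, (SD_half h i hy (by linarith)).2]
      refine ⟨?_, rfl⟩
      by_cases hz : i = z
      · subst hz
        rw [c4_z hk]
      · rw [c4_i hk hz, (SD_half h i hx (by linarith)).1, (SD_half h i hy (by linarith)).1]

/-- The result of the splitting at `j`. -/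
theorem agree_j (h : SD c ν v z j k) (L r : ℝ) (e2 : Vk d) (a : Pk d → Vk d) :
    Agree 0 (splitData (c4 c v z j k a e2 L r) (n4 c ν v j k) k (v j) (v k - v j) r)
      (hd3 c ν v z j k e2 L r) where
  b := by
    funext i
    show (if i.1 = z then fun _ => v k + L • e2 - (4 * r) • (v k - v j) else c i.1) =
      c4 c v z j k a e2 L r i.1
    by_cases hz : i.1 = z
    · rw [if_pos hz, hz, c4_z h.zk]
    · rw [if_neg hz, c4_i i.2 hz]
  n := by
    funext i
    show ν i.1 = n4 c ν v j k i.1
    rw [n4_i i.2]
  c := rfl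
  r0 := rfl
  bk x _ hx0 := by
    show c k x + sc (x 0) • (v j + (2 * r) • (v k - v j) - v k) = c4 c v z j k a e2 L r k x
    rw [c4_k]
    exact (if_pos hx0).symm
  nk x _ hx0 := by
    show nk2 c ν v j k x = n4 c ν v j k k x
    rw [n4_k]
    exact (if_pos hx0).symm
  bt x _ _ := by
    show v j + (2 * r) • (v k - v j) - r • (v k - v j) = v j + r • (v k - v j)
    module
  nt x _ _ := rfl
  m x _ _ := by
    show v j + (2 * r) • (v k - v j) - (r / 2) • (v k - v j) = v j + (3 / 2 * r) • (v k - v j)
    module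
  ph x _ _ := rfl
  nw x _ _ := rfl

end Vale.Agent.P268.T.A109
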