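import Vale.Agent.P268.T.H277.MoveFam
import Vale.Agent.P268.T.H732.RI

/-!
# P268, topological half, block B6c: the splitting at the constant sheet

`split_z` : the hypotheses of the splitting at `z`, for the data `c1` after the lift.
`agree_z` : the result of the splitting is `hd0`.
-/

set_option linter.unusedSectionVars false

namespace Vale.Agent.P268.T.A109

open Set Filter Topology Metric
open Vale.Agent.P268.T.H277 Vale.Agent.P268.T.H732
open Vale.Agent.P268.T.H83 (lifts lifts_of_le lifts_of_ge lifts_mem continuous_lifts)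

variable {d : ℕ} {A : Type} [DecidableEq A]

section Tools

variable {c ν : A → Pk d → Vk d} {v : A → Vk d} {z j k : A} {e2 : Vk d} {L r : ℝ}

theorem SD_cb (h : SD c ν v z j k) (i : A) : ContinuousOn (c i) (closedBall 0 1) :=
  (h.dat.cb i).comp (f := fun x : Pk d => ((), x)) (by fun_prop) (fun _ hx => ⟨mem_univ _, hx⟩)

theorem SD_cn (h : SD c ν v z j k) (i : A) : ContinuousOn (ν i) (closedBall 0 1) :=
  (h.dat.cn i).comp (f := fun x : Pk d => ((), x)) (by fun_prop) (fun _ hx => ⟨mem_univ _, hx⟩)

theorem SD_inj (h : SD c ν v z j k) {x : Pk d} (hx : ‖x‖ ≤ 1) {i i' : A} (hi : i ≠ i') :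
    c i x ≠ c i' x := fun h1 =>
  hi (h.dat.inj () (mem_univ _) x (by simpa using hx) h1)

/-- The update of the first coordinate by `1`. -/
theorem norm_upd_one {x : Pk d} (hx : ‖x‖ ≤ 1) : ‖Function.update x 0 (1 : ℝ)‖ ≤ 1 := by
  refine (pi_norm_le_iff_of_nonneg zero_le_one).mpr fun l => ?_
  by_cases hl : l = 0
  · rw [hl, Function.update_self]
    norm_num
  · rw [Function.update_of_ne hl]
    exact (norm_le_pi_norm x l).trans hx

theorem face_upd_one (x : Pk d) : Face (Function.update x 0 (1 : ℝ)) :=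
  Or.inl ⟨0, Fin.last_pos.ne, by rw [Function.update_self, abs_one]⟩

/-- To the right of the windows everything is in the base position. -/
theorem SD_half (h : SD c ν v z j k) (i : A) {x : Pk d} (hx : ‖x‖ ≤ 1) (h0 : 1 / 2 ≤ x 0) :
    c i x = v i ∧ ν i x = (frk d).h := by
  obtain ⟨w1, w2, -, -⟩ := h.win i
  have h1 : x 0 ≤ 1 := ((le_abs_self _).trans (norm_le_pi_norm x 0)).trans hx
  have hy := norm_upd_one hx
  have e1 : Function.update x 0 (1 : ℝ) 0 = 1 := Function.update_self _ _ _
  have e2 : ∀ l, l ≠ 0 → x l = Function.update x 0 (1 : ℝ) l := fun l hl =>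
    (Function.update_of_ne hl _ _).symm
  have h2 := w1 x hx h0 h1 _ hy (by rw [e1]; norm_num) (by rw [e1]) e2
  have h3 := w2 x hx h0 h1 _ hy (by rw [e1]; norm_num) (by rw [e1]) e2
  obtain ⟨h4, h5⟩ := h.face i _ hy (face_upd_one x)
  exact ⟨h2.trans h4, h3.trans h5⟩

theorem SG_eh (h : SD c ν v z j k) (g : SG c v z j k e2 L r) :
    inner ℝ (v k - v j) (frk d).h = 0 := by
  rw [inner_sub_left, g.vh k h.zk.symm, g.vh j h.zj.symm, sub_zero]

theorem SG_ee (h : SD c ν v z j k) (g : SG c v z j k e2 L r) :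
    inner ℝ e2 (v k - v j) = 0 := by
  rw [inner_sub_right, g.e2v k h.zk.symm, g.e2v j h.zj.symm, sub_zero]

/-- Norm of `s e₂ + t e'`. -/
theorem norm_comb_ge {e e' : Vk d} (he : ‖e'‖ = 1) (h : inner ℝ e e' = 0) (s t : ℝ) :
    |t| ≤ ‖s • e + t • e'‖ := by
  have h1 : ‖s • e + t • e'‖ ^ 2 = ‖s • e‖ ^ 2 + t ^ 2 := by
    rw [norm_add_sq_real, inner_smul_left, inner_smul_right, h, norm_smul t, he, mul_one,
      Real.norm_eq_abs, sq_abs]
    simp
  have h2 : |t| ^ 2 ≤ ‖s • e + t • e'‖ ^ 2 := by
    rw [h1, sq_abs]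
    nlinarith [sq_nonneg ‖s • e‖]
  exact le_of_sq_le_sq h2 (norm_nonneg _)

theorem norm_far {e2 e' : Vk d} (h2 : ‖e2‖ = 1) (he : ‖e'‖ = 1) {L s : ℝ} (hL : 0 ≤ L)
    (w : Vk d) (hw : ‖w‖ + 8 ≤ L) (hs : |s| ≤ 1) : 7 ≤ ‖w - (L • e2 - s • e')‖ := by
  have h3 : ‖L • e2‖ = L := by rw [norm_smul, h2, mul_one, Real.norm_eq_abs, abs_of_nonneg hL]
  have h4 : ‖s • e'‖ ≤ 1 := by rw [norm_smul, he, mul_one, Real.norm_eq_abs]; exact hs
  have h5 : L • e2 = (s • e' + w) - (w - (L • e2 - s • e')) := by module
  have h6 : ‖L • e2‖ ≤ ‖s • e' + w‖ + ‖w - (L • e2 - s • e')‖ := by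
    conv_lhs => rw [h5]
    exact norm_sub_le _ _
  have h7 := norm_add_le (s • e') w
  linarith

end Tools

variable {c ν : A → Pk d → Vk d} {v : A → Vk d} {z j k : A} {e2 : Vk d} {L r : ℝ}

theorem SG_L (h : SD c ν v z j k) (g : SG c v z j k e2 L r) : 8 ≤ L := by
  have h1 := g.hL k h.zk.symm 0 (by simp)
  linarith [norm_nonneg (c k 0 - v k)]

theorem c1_k : c1 c v z j k e2 L r k = fun x => c k x + (lifts (x 0) * L) • e2 := by
  unfold c1
  rw [if_pos rfl]

theorem c1_z (hz : z ≠ k) :
    c1 c v z j k e2 L r z = fun _ => v k + L • e2 - (2 * r) • (v k - v j) := by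
  unfold c1
  rw [if_neg hz, if_pos rfl]

theorem c1_i {i : A} (hk : i ≠ k) (hz : i ≠ z) : c1 c v z j k e2 L r i = c i := by
  unfold c1
  rw [if_neg hk, if_neg hz]

/-- The lifted strand is far from the constant sheet. -/
theorem c1_fark (h : SD c ν v z j k) (g : SG c v z j k e2 L r) {x : Pk d} (hx : ‖x‖ ≤ 1) :
    2 * r ≤ ‖c1 c v z j k e2 L r k x - c1 c v z j k e2 L r z x‖ := by
  have hr := g.hr
  have hr8 := g.hr8
  rw [c1_k, c1_z h.zk]
  show 2 * r ≤ ‖c k x + (lifts (x 0) * L) • e2 - (v k + L • e2 - (2 * r) • (v k - v j))‖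
  rcases le_total (x 0) (-1 / 2) with h0 | h0
  · rw [lifts_of_le (by linarith), zero_mul, zero_smul, add_zero]
    have h1 := norm_far (s := 2 * r) g.e2n g.n1 (by linarith [SG_L h g]) (c k x - v k)
      (g.hL k h.zk.symm x hx) (by rw [abs_of_pos (by linarith)]; linarith)
    have h2 : c k x - (v k + L • e2 - (2 * r) • (v k - v j)) =
        c k x - v k - (L • e2 - (2 * r) • (v k - v j)) := by module
    rw [h2]
    linarith
  · rw [(h.right x hx h0).1]
    have h2 : v k + (lifts (x 0) * L) • e2 - (v k + L • e2 - (2 * r) • (v k - v j)) =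
        ((lifts (x 0) - 1) * L) • e2 + (2 * r) • (v k - v j) := by module
    rw [h2]
    refine le_trans ?_ (norm_comb_ge g.n1 (SG_ee h g) _ _)
    exact le_abs_self _

/-- The lifted strand avoids the others. -/
theorem c1_ne (h : SD c ν v z j k) (g : SG c v z j k e2 L r) {x : Pk d} (hx : ‖x‖ ≤ 1) {i : A}
    (hk : i ≠ k) (hz : i ≠ z) : c k x + (lifts (x 0) * L) • e2 ≠ c i x := by
  rcases le_total (x 0) (-1 / 2) with h0 | h0
  · rw [lifts_of_le (by linarith), zero_mul, zero_smul, add_zero]
    exact SD_inj h hx hk.symm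
  · rw [(h.right x hx h0).1]
    rcases le_total (x 0) (1 / 4) with h1 | h1
    · rw [(h.left i hk x hx h1).1]
      intro h2
      have h3 : v i - v k = (lifts (x 0) * L) • e2 := by rw [← h2]; abel
      have h4 : inner ℝ e2 (v i - v k) = 0 := by
        rw [inner_sub_right, g.e2v i hz, g.e2v k h.zk.symm, sub_zero]
      rw [h3, inner_smul_right, real_inner_self_eq_norm_sq, g.e2n] at h4
      have h5 : lifts (x 0) * L = 0 := by linarith
      rw [h5, zero_smul, add_zero] at h2
      have h6 := SD_inj h hx hk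
      rw [(h.left i hk x hx h1).1, (h.right x hx h0).1] at h6
      exact h6 h2.symm
    · rw [lifts_of_ge (by linarith), one_mul]
      intro h2
      have h3 := g.hL i hz x hx
      rw [← h2] at h3
      have h4 : v k + L • e2 - v k = L • e2 := by abel
      rw [h4, norm_smul, g.e2n, Real.norm_eq_abs] at h3
      linarith [le_abs_self L]

/-- The sheet `z` of `c1` is far from the sheets other than `k`. -/
theorem c1_far (h : SD c ν v z j k) (g : SG c v z j k e2 L r) {x : Pk d} (hx : ‖x‖ ≤ 1) {i : A}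
    (hz : i ≠ z) {s : ℝ} (hs : |s| ≤ 1) :
    7 ≤ ‖c i x - (v k + L • e2 - s • (v k - v j))‖ := by
  have h1 := norm_far (s := s) g.e2n g.n1 (by linarith [SG_L h g]) (c i x - v k)
    (g.hL i hz x hx) hs
  have h2 : c i x - (v k + L • e2 - s • (v k - v j)) =
      c i x - v k - (L • e2 - s • (v k - v j)) := by module
  rw [h2]
  exact h1

/-- The lifted data are braid data. -/
theorem c1_dat (h : SD c ν v z j k) (g : SG c v z j k e2 L r) :
    BData (frk d).h (c1 c v z j k e2 L r) ν := by
  have hr := g.hr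
  have hr8 := g.hr8
  have hL8 := SG_L h g
  have hu : () ∈ (univ : Set Unit) := mem_univ _
  refine ⟨fun i => ?_, fun i => h.dat.cn i, fun t ht => h.dat.nn t ht, fun t ht x hx => ?_,
    fun t ht i x hx => ?_, fun t ht => h.dat.nh t ht⟩
  · have h1 : ContinuousOn (c1 c v z j k e2 L r i) (closedBall 0 1) := by
      by_cases hk : i = k
      · subst hk
        rw [c1_k]
        refine (SD_cb h i).add (Continuous.continuousOn ?_)
        exact ((continuous_lifts.comp (continuous_apply 0)).mul continuous_const).smul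
          continuous_const
      · by_cases hz : i = z
        · subst hz
          rw [c1_z hk]
          exact continuousOn_const
        · rw [c1_i hk hz]
          exact SD_cb h i
    exact h1.comp continuousOn_snd fun q hq => hq.2
  · have hx' : ‖x‖ ≤ 1 := by simpa using hx
    have key : ∀ i, i ≠ k → i ≠ z →
        c1 c v z j k e2 L r k x ≠ c1 c v z j k e2 L r i x := by
      intro i hk hz
      rw [c1_k, c1_i hk hz]
      exact c1_ne h g hx' hk hz
    have key2 : ∀ i, i ≠ k → i ≠ z →
        c1 c v z j k e2 L r i x ≠ c1 c v z j k e2 L r z x := by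
      intro i hk hz h1
      rw [c1_i hk hz, c1_z h.zk] at h1
      have h2 := c1_far h g (s := 2 * r) hx' hz (by rw [abs_of_pos (by linarith)]; linarith)
      rw [h1, sub_self, norm_zero] at h2
      linarith
    have key3 : c1 c v z j k e2 L r k x ≠ c1 c v z j k e2 L r z x := by
      intro h1
      have h2 := c1_fark h g hx'
      rw [h1, sub_self, norm_zero] at h2
      linarith
    intro i i' (hii : c1 c v z j k e2 L r i x = c1 c v z j k e2 L r i' x)
    by_contra hne
    by_cases hk : i = k
    · subst hk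
      by_cases hz : i' = z
      · subst hz
        exact key3 hii
      · exact key i' (Ne.symm hne) hz hii
    · by_cases hk' : i' = k
      · subst hk'
        by_cases hz : i = z
        · subst hz
          exact key3 hii.symm
        · exact key i hk hz hii.symm
      · by_cases hz : i = z
        · subst hz
          exact key2 i' hk' (Ne.symm hne) hii.symm
        · by_cases hz' : i' = z
          · subst hz'
            exact key2 i hk hz hii
          · rw [c1_i hk hz, c1_i hk' hz'] at hii
            exact SD_inj h hx' hne hii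
  · show inner ℝ (c1 c v z j k e2 L r i x) (frk d).h = 0
    by_cases hk : i = k
    · subst hk
      rw [c1_k]
      show inner ℝ (c i x + (lifts (x 0) * L) • e2) (frk d).h = 0
      rw [inner_add_left, h.dat.bh t ht i x hx, inner_smul_left, g.e2h, mul_zero, add_zero]
    · by_cases hz : i = z
      · subst hz
        rw [c1_z hk]
        show inner ℝ (v k + L • e2 - (2 * r) • (v k - v j)) (frk d).h = 0
        rw [inner_sub_left, inner_add_left, g.vh k h.zk.symm, inner_smul_left, g.e2h,
          inner_smul_left, SG_eh h g]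
        simp
      · rw [c1_i hk hz]
        exact h.dat.bh t ht i x hx

/-- **The hypotheses of the splitting at `z`.** -/
theorem split_z (h : SD c ν v z j k) (g : SG c v z j k e2 L r) :
    SplitHyp (c1 c v z j k e2 L r) ν (fun _ => v k - v j) z k
      (v k + L • e2 - (2 * r) • (v k - v j)) (v k - v j) r := by
  have hr := g.hr
  have hr8 := g.hr8
  have hL8 := SG_L h g
  refine
    { jk := h.zk
      hr := g.hr
      dat := c1_dat h g
      ca := continuousOn_const
      na := fun x hx => ⟨g.n1, by rw [h.nz x]; exact SG_eh h g⟩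
      ah := fun x hx => SG_eh h g
      par := fun x hx hx0 => ?_
      left := fun x hx hx0 => ⟨by rw [c1_z h.zk], h.nz x, rfl⟩
      far := fun i hz hk x hx s hs => ?_
      fark := fun x hx => c1_fark h g hx
      win := fun i => ?_
      wina := fun x _ _ _ y _ _ _ _ => rfl
      cst := fun i x y hx hy hx0 hy0 => ?_ }
  · obtain ⟨h1, h2⟩ := h.right x hx (by linarith)
    refine ⟨?_, by rw [h2, h.nz x]⟩
    rw [c1_k, c1_z h.zk]
    show c k x + (lifts (x 0) * L) • e2 = v k + L • e2 - (2 * r) • (v k - v j) +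
      (2 * r) • (v k - v j)
    rw [h1, lifts_of_ge (by linarith)]
    module
  · rw [c1_i hk hz, c1_z h.zk]
    show 4 * r ≤ ‖c i x - (v k + L • e2 - (2 * r) • (v k - v j) + s • (v k - v j))‖
    have h1 : v k + L • e2 - (2 * r) • (v k - v j) + s • (v k - v j) =
        v k + L • e2 - (2 * r - s) • (v k - v j) := by module
    rw [h1]
    obtain ⟨h2, h3⟩ := hs
    have h4 := c1_far h g (s := 2 * r - s) hx hz (by rw [abs_of_nonneg (by linarith)]; linarith)
    linarith
  · have hν1 : ConstOn (-1 / 4) (1 / 4) (ν i) := by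
      intro x hx hx0 hx1 y hy hy0 hy1 _
      by_cases hk : i = k
      · subst hk
        rw [(h.right x hx (by linarith)).2, (h.right y hy (by linarith)).2]
      · rw [(h.left i hk x hx hx1).2, (h.left i hk y hy hy1).2]
    obtain ⟨w1, w2, w3, w4⟩ := h.win i
    by_cases hk : i = k
    · subst hk
      rw [c1_k]
      refine ⟨fun x hx hx0 hx1 y hy hy0 hy1 hxy => ?_, hν1,
        fun x hx hx0 hx1 y hy hy0 hy1 hxy => ?_, w2, fun x hx hx0 hx1 y hy hy0 hy1 hxy => ?_, w4⟩
      · show c i x + (lifts (x 0) * L) • e2 = c i y + (lifts (y 0) * L) • e2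
        rw [(h.right x hx (by linarith)).1, (h.right y hy (by linarith)).1,
          lifts_of_ge (by linarith), lifts_of_ge (by linarith)]
      · show c i x + (lifts (x 0) * L) • e2 = c i y + (lifts (y 0) * L) • e2
        rw [(h.right x hx (by linarith)).1, (h.right y hy (by linarith)).1,
          lifts_of_ge (by linarith), lifts_of_ge (by linarith)]
      · show c i x + (lifts (x 0) * L) • e2 = c i y + (lifts (y 0) * L) • e2
        rw [w3 x hx hx0 hx1 y hy hy0 hy1 hxy, lifts_of_le (by linarith),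
          lifts_of_le (by linarith)]
    · by_cases hz : i = z
      · subst hz
        rw [c1_z hk]
        exact ⟨fun x _ _ _ y _ _ _ _ => rfl, hν1, fun x _ _ _ y _ _ _ _ => rfl, w2,
          fun x _ _ _ y _ _ _ _ => rfl, w4⟩
      · rw [c1_i hk hz]
        refine ⟨fun x hx hx0 hx1 y hy hy0 hy1 hxy => ?_, hν1, w1, w2, w3, w4⟩
        rw [(h.left i hk x hx hx1).1, (h.left i hk y hy hy1).1]
  · obtain ⟨h1, h2⟩ := SD_half h i hx (by linarith)
    obtain ⟨h3, h4⟩ := SD_half h i hy (by linarith)
    refine ⟨?_, by rw [h2, h4]⟩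
    by_cases hk : i = k
    · subst hk
      rw [c1_k]
      show c i x + (lifts (x 0) * L) • e2 = c i y + (lifts (y 0) * L) • e2
      rw [h1, h3, lifts_of_ge (by linarith), lifts_of_ge (by linarith)]
    · by_cases hz : i = z
      · subst hz
        rw [c1_z hk]
      · rw [c1_i hk hz, h1, h3]

/-- The result of the splitting at `z`. -/
theorem agree_z (h : SD c ν v z j k) (L r : ℝ) (e2 : Vk d) :
    Agree 0 (splitData (c1 c v z j k e2 L r) ν k (v k + L • e2 - (2 * r) • (v k - v j))
      (v k - v j) r) (hd0 c ν v z j k e2 L r) where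
  b := by
    funext i
    show (if i.1 = z then fun _ => v k + L • e2 - (2 * r) • (v k - v j) else c i.1) =
      c1 c v z j k e2 L r i.1
    by_cases hz : i.1 = z
    · rw [if_pos hz, hz, c1_z h.zk]
    · rw [if_neg hz, c1_i i.2 hz]
  n := rfl
  c := rfl
  r0 := rfl
  bk x _ _ := by
    show c k x + (lifts (x 0) * L) • e2 = c1 c v z j k e2 L r k x
    rw [c1_k]
  nk x _ _ := rfl
  bt x _ _ := by
    show v k + L • e2 - r • (v k - v j) =
      v k + L • e2 - (2 * r) • (v k - v j) + r • (v k - v j)
    module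
  nt x _ _ := rfl
  m x _ _ := by
    show v k + L • e2 - (r / 2) • (v k - v j) =
      v k + L • e2 - (2 * r) • (v k - v j) + (3 / 2 * r) • (v k - v j)
    module
  ph x _ _ := rfl
  nw x _ _ := rfl

end Vale.Agent.P268.T.A109
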